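import Mathlib
import Vale.Agent.P181.H463.GtDef

/-! Gelfand-Tsetlin patterns: the product formula and the growth in the number of variables. -/

set_option linter.all false

open Finset Matrix

namespace Vale.Agent.P181.H539

/-- the determinant of binomial coefficients -/
def bd {N : ℕ} (v : Fin N → ℕ) : ℤ := (Matrix.of fun i j : Fin N => ((v i).choose j : ℤ)).det

lemma hockey (p q k : ℕ) (h : p ≤ q) :
    ∑ m ∈ Ico p q, (m.choose k : ℤ) = (q.choose (k + 1) : ℤ) - (p.choose (k + 1) : ℤ) := by
  induction q, h using Nat.le_induction with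
  | base => simp
  | succ q hq ih =>
    rw [Finset.sum_Ico_succ_top hq, ih, Nat.choose_succ_succ' q k]
    push_cast
    ring

theorem bd_succ {N : ℕ} (V : Fin (N + 1) → ℕ) (hV : ∀ i : Fin N, V i.castSucc ≤ V i.succ) :
    bd V = ∑ v ∈ Fintype.piFinset (fun i : Fin N => Ico (V i.castSucc) (V i.succ)), bd v := by
  classical
  let A : Matrix (Fin (N + 1)) (Fin (N + 1)) ℤ := Matrix.of fun i j => ((V i).choose j : ℤ)
  let B : Matrix (Fin (N + 1)) (Fin (N + 1)) ℤ := Matrix.of fun i j =>
    Fin.cases (motive := fun _ => ℤ) ((V 0).choose j : ℤ)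
      (fun k : Fin N => ((V k.succ).choose j : ℤ) - ((V k.castSucc).choose j : ℤ)) i
  have hAB : A.det = B.det := by
    refine Matrix.det_eq_of_forall_row_eq_smul_add_pred (fun _ => 1) (fun j => ?_) (fun i j => ?_)
    · rfl
    · show ((V i.succ).choose j : ℤ) = ((V i.succ).choose j : ℤ) - ((V i.castSucc).choose j : ℤ) +
        1 * ((V i.castSucc).choose j : ℤ)
      ring
  have hB : B.det = (B.submatrix Fin.succ Fin.succ).det := by
    rw [Matrix.det_succ_column_zero, Fin.sum_univ_succ]
    have h0 : B 0 0 = 1 := by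
      show ((V 0).choose ((0 : Fin (N + 1)) : ℕ) : ℤ) = 1
      simp
    have h1 : ∀ i : Fin N, B i.succ 0 = 0 := by
      intro i
      show ((V i.succ).choose ((0 : Fin (N + 1)) : ℕ) : ℤ) -
        ((V i.castSucc).choose ((0 : Fin (N + 1)) : ℕ) : ℤ) = 0
      simp
    rw [h0, Finset.sum_eq_zero (fun i _ => by rw [h1 i]; ring), add_zero]
    simp
  have hC : (B.submatrix Fin.succ Fin.succ) = Matrix.of fun i j : Fin N =>
      ∑ m ∈ Ico (V i.castSucc) (V i.succ), (m.choose j : ℤ) := by
    ext i j
    show ((V i.succ).choose (j.succ : Fin (N + 1)) : ℤ) -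
      ((V i.castSucc).choose (j.succ : Fin (N + 1)) : ℤ) =
      ∑ m ∈ Ico (V i.castSucc) (V i.succ), (m.choose j : ℤ)
    rw [hockey _ _ _ (hV i)]
    simp
  show A.det = _
  rw [hAB, hB, hC]
  have h2 := (Matrix.detRowAlternating (n := Fin N) (R := ℤ)).toMultilinearMap.map_sum_finset
    (fun (i : Fin N) (m : ℕ) => fun j : Fin N => (m.choose j : ℤ))
    (fun i : Fin N => Ico (V i.castSucc) (V i.succ))
  have e : (Matrix.of fun i j : Fin N =>
      ∑ m ∈ Ico (V i.castSucc) (V i.succ), (m.choose j : ℤ)) =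
      fun i : Fin N => ∑ m ∈ Ico (V i.castSucc) (V i.succ), fun j : Fin N => (m.choose j : ℤ) := by
    ext i j
    simp
  rw [e]
  exact h2

/-- the product formula -/
theorem bd_prod {N : ℕ} (v : Fin N → ℕ) :
    (∏ i : Fin N, ((i : ℕ).factorial : ℤ)) * bd v = ∏ i, ∏ j ∈ Ioi i, ((v j : ℤ) - v i) := by
  have h := det_eval_matrixOfPolynomials_eq_det_vandermonde (fun i : Fin N ↦ (v i : ℤ))
      (fun i => descPochhammer ℤ i)
      (fun i => descPochhammer_natDegree ℤ i)
      (fun i => monic_descPochhammer ℤ i)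
  rw [det_vandermonde] at h
  rw [h]
  have h2 := det_mul_row (fun (i : Fin N) => ((Nat.factorial (i : ℕ)) : ℤ))
    (Matrix.of fun i j : Fin N => ((v i).choose j : ℤ))
  unfold bd
  rw [← h2]
  congr 1
  ext i j
  simp only [of_apply]
  rw [descPochhammer_eval_eq_descFactorial ℤ _ _, Nat.descFactorial_eq_factorial_mul_choose]
  push_cast
  ring

/-- one more smallest entry -/
theorem bd_step {N : ℕ} (v : Fin N → ℕ) (V : Fin (N + 1) → ℕ) (h0 : V 0 = 0)
    (h1 : ∀ i : Fin N, V i.succ = v i + 1) :
    (N.factorial : ℤ) * bd V = bd v * ∏ i : Fin N, ((v i : ℤ) + 1) := by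
  have hf : (∏ i : Fin N, ((i : ℕ).factorial : ℤ)) ≠ 0 := by
    rw [Finset.prod_ne_zero_iff]
    intro i _
    exact_mod_cast Nat.factorial_ne_zero _
  have hV := bd_prod V
  have hv := bd_prod v
  rw [Fin.prod_univ_castSucc] at hV
  rw [Fin.prod_univ_succ (f := fun i => ∏ j ∈ Ioi i, ((V j : ℤ) - V i))] at hV
  have e1 : ∏ j ∈ Ioi (0 : Fin (N + 1)), ((V j : ℤ) - V 0) = ∏ i : Fin N, ((v i : ℤ) + 1) := by
    rw [Fin.Ioi_zero_eq_map, Finset.prod_map]
    refine Finset.prod_congr rfl (fun i _ => ?_)
    rw [h0]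
    have := h1 i
    simp only [Fin.coe_succEmb] at *
    rw [this]
    push_cast
    ring
  have e2 : ∏ i : Fin N, ∏ j ∈ Ioi i.succ, ((V j : ℤ) - V i.succ) =
      ∏ i : Fin N, ∏ j ∈ Ioi i, ((v j : ℤ) - v i) := by
    refine Finset.prod_congr rfl (fun i _ => ?_)
    rw [Fin.Ioi_succ, Finset.prod_map]
    refine Finset.prod_congr rfl (fun j _ => ?_)
    simp only [Fin.coe_succEmb]
    rw [h1 i, h1 j]
    push_cast
    ring
  rw [e1, e2, ← hv] at hV
  simp only [Fin.val_castSucc, Fin.val_last] at hV
  have : (∏ i : Fin N, ((i : ℕ).factorial : ℤ)) * ((N.factorial : ℤ) * bd V) =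
      (∏ i : Fin N, ((i : ℕ).factorial : ℤ)) * (bd v * ∏ i : Fin N, ((v i : ℤ) + 1)) := by
    linear_combination hV
  exact mul_left_cancel₀ hf this

/-- padding by zeros -/
def pad {n : ℕ} (lam : Fin n → ℕ) (i : ℕ) : ℕ := if h : i < n then lam ⟨i, h⟩ else 0

lemma pad_of_lt {n : ℕ} (lam : Fin n → ℕ) {i : ℕ} (h : i < n) : pad lam i = lam ⟨i, h⟩ := dif_pos h

lemma pad_of_ge {n : ℕ} (lam : Fin n → ℕ) {i : ℕ} (h : n ≤ i) : pad lam i = 0 :=
  dif_neg (by omega)

open Vale.Agent.P181.H463 (nxt strips gt)

lemma nxt_eq {n : ℕ} (lam : Fin n → ℕ) (i : Fin n) : nxt lam i = pad lam (i + 1) := rfl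

lemma pad_anti {n : ℕ} {lam : Fin n → ℕ} (h : Antitone lam) : Antitone (pad lam) := by
  intro i j hij
  by_cases hj : j < n
  · rw [pad_of_lt lam hj, pad_of_lt lam (by omega)]
    exact h (by simpa using hij)
  · rw [pad_of_ge lam (by omega)]
    exact Nat.zero_le _

lemma mem_strip {n : ℕ} {lam mu : Fin n → ℕ}
    (h : mu ∈ strips lam) (k : ℕ) :
    pad lam (k + 1) ≤ pad mu k ∧ pad mu k ≤ pad lam k := by
  unfold strips at h
  rw [Fintype.mem_piFinset] at h
  by_cases hk : k < n
  · have := h ⟨k, hk⟩
    rw [Finset.mem_Icc, nxt_eq] at this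
    rw [pad_of_lt mu hk, pad_of_lt lam hk]
    exact this
  · rw [pad_of_ge mu (by omega), pad_of_ge lam (by omega : n ≤ k + 1)]
    exact ⟨le_rfl, Nat.zero_le _⟩

lemma strip_anti {n : ℕ} {lam mu : Fin n → ℕ}
    (h : mu ∈ strips lam)
    (hl : Antitone lam) : Antitone mu := by
  intro i j hij
  rcases eq_or_lt_of_le hij with rfl | hlt
  · exact le_rfl
  have h1 := (mem_strip h i).1
  have h2 := (mem_strip h j).2
  rw [pad_of_lt mu i.2] at h1
  rw [pad_of_lt mu j.2] at h2
  have h3 : pad lam j ≤ pad lam (i + 1) := pad_anti hl (by exact_mod_cast hlt)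
  simp only [Fin.eta] at h1 h2
  omega

/-- the sequence of the shifted entries in increasing order -/
def sh {n : ℕ} (N : ℕ) (lam : Fin n → ℕ) : Fin N → ℕ := fun i => pad lam (N - 1 - i) + i

open Classical in
theorem gt_eq {n : ℕ} (N : ℕ) {lam : Fin n → ℕ} (hl : Antitone lam) :
    (gt n N lam : ℤ) = if (∀ i, N ≤ i → pad lam i = 0) then bd (sh N lam) else 0 := by
  classical
  induction N generalizing lam with
  | zero =>
    have e : (∀ i, 0 ≤ i → pad lam i = 0) ↔ lam = 0 := by
      constructor
      · intro h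
        funext i
        have := h i (Nat.zero_le _)
        rw [pad_of_lt lam i.2] at this
        exact this
      · rintro rfl i -
        unfold pad
        split_ifs <;> rfl
    by_cases h : lam = 0
    · rw [if_pos (e.2 h)]
      simp [gt, h, bd]
    · rw [if_neg (fun h' => h (e.1 h'))]
      simp [gt, h]
  | succ N ih =>
    have e0 : (gt n (N + 1) lam : ℤ) =
        ∑ mu ∈ strips lam,
          (if (∀ i, N ≤ i → pad mu i = 0) then bd (sh N mu) else 0) := by
      rw [gt]
      push_cast
      exact Finset.sum_congr rfl (fun mu hmu => ih (strip_anti hmu hl))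
    rw [e0, ← Finset.sum_filter]
    by_cases hc : ∀ i, N + 1 ≤ i → pad lam i = 0
    · rw [if_pos hc]
      have hV : ∀ i : Fin N, sh (N + 1) lam i.castSucc ≤ sh (N + 1) lam i.succ := by
        intro i
        unfold sh
        have h1 : pad lam (N + 1 - 1 - (i.castSucc : Fin (N + 1))) ≤
            pad lam (N + 1 - 1 - (i.succ : Fin (N + 1))) := by
          apply pad_anti hl
          simp only [Fin.val_castSucc, Fin.val_succ]
          omega
        simp only [Fin.val_castSucc, Fin.val_succ] at h1 ⊢
        omega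
      rw [bd_succ _ hV]
      refine Finset.sum_bij' (fun mu _ => sh N mu)
        (fun v _ => fun k : Fin n => if h : (k : ℕ) < N then v ⟨N - 1 - k, by omega⟩ - (N - 1 - k)
          else 0) ?_ ?_ ?_ ?_ ?_
      · intro mu hmu
        rw [Finset.mem_filter] at hmu
        rw [Fintype.mem_piFinset]
        intro i
        rw [Finset.mem_Ico]
        have h1 := mem_strip hmu.1 (N - 1 - i)
        have hi := i.2
        unfold sh
        simp only [Fin.val_castSucc, Fin.val_succ]
        have e1 : N - 1 - (i : ℕ) + 1 = N + 1 - 1 - i := by omega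
        have e2 : N - 1 - (i : ℕ) = N + 1 - 1 - (i + 1) := by omega
        rw [e1] at h1
        rw [← e2]
        omega
      · intro v hv
        rw [Fintype.mem_piFinset] at hv
        rw [Finset.mem_filter]
        unfold strips
        rw [Fintype.mem_piFinset]
        have key : ∀ k : ℕ, (hk : k < N) → pad lam (k + 1) + (N - 1 - k) ≤ v ⟨N - 1 - k, by omega⟩ ∧
            v ⟨N - 1 - k, by omega⟩ < pad lam k + (N - 1 - k) + 1 := by
          intro k hk
          have h1 := hv ⟨N - 1 - k, by omega⟩
          rw [Finset.mem_Ico] at h1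
          unfold sh at h1
          simp only [Fin.val_castSucc, Fin.val_succ] at h1
          have e1 : N + 1 - 1 - (N - 1 - k) = k + 1 := by omega
          have e2 : N + 1 - 1 - (N - 1 - k + 1) = k := by omega
          rw [e1, e2] at h1
          omega
        constructor
        · intro k
          rw [Finset.mem_Icc, nxt_eq]
          by_cases hk : (k : ℕ) < N
          · rw [dif_pos hk]
            have := key k hk
            rw [pad_of_lt lam k.2] at this
            simp only [Fin.eta] at this
            omega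
          · rw [dif_neg hk]
            have := hc (k + 1) (by omega)
            omega
        · intro i hi
          by_cases hin : i < n
          · rw [pad_of_lt _ hin, dif_neg (by simpa using hi)]
          · exact pad_of_ge _ (by omega)
      · intro mu hmu
        rw [Finset.mem_filter] at hmu
        funext k
        by_cases hk : (k : ℕ) < N
        · rw [dif_pos hk]
          unfold sh
          simp only
          have e1 : N - 1 - (N - 1 - (k : ℕ)) = k := by omega
          rw [e1, pad_of_lt mu k.2]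
          simp
        · rw [dif_neg hk]
          have := hmu.2 k (by omega)
          rw [pad_of_lt mu k.2] at this
          exact this.symm
      · intro v hv
        rw [Fintype.mem_piFinset] at hv
        funext i
        have hi := i.2
        have h1 := hv i
        rw [Finset.mem_Ico] at h1
        unfold sh at h1 ⊢
        simp only [Fin.val_castSucc, Fin.val_succ] at h1
        by_cases hin : N - 1 - (i : ℕ) < n
        · rw [pad_of_lt _ hin, dif_pos (by simp only; omega)]
          simp only
          have e1 : (⟨N - 1 - (N - 1 - (i : ℕ)), by omega⟩ : Fin N) = i := by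
            ext
            simp only
            omega
          rw [e1]
          omega
        · rw [pad_of_ge _ (by omega)]
          have e2 : N + 1 - 1 - ((i : ℕ) + 1) = N - 1 - i := by omega
          rw [e2, pad_of_ge lam (by omega : n ≤ N - 1 - (i : ℕ))] at h1
          omega
      · intro mu hmu
        rfl
    · rw [if_neg hc]
      push Not at hc
      obtain ⟨i, hi, hi0⟩ := hc
      refine Finset.sum_eq_zero (fun mu hmu => ?_)
      exfalso
      rw [Finset.mem_filter] at hmu
      have h1 := (mem_strip hmu.1 (i - 1)).1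
      have h2 := hmu.2 (i - 1) (by omega)
      rw [Nat.sub_add_cancel (by omega)] at h1
      omega

/-- one more column -/
theorem gt_step {n N : ℕ} (hn : n ≤ N) {lam : Fin n → ℕ} (hl : Antitone lam) :
    N.factorial * gt n (N + 1) lam = gt n N lam * ∏ k ∈ range N, (pad lam k + (N - k)) := by
  have h1 := gt_eq (N + 1) hl
  have h2 := gt_eq N hl
  rw [if_pos (fun i hi => pad_of_ge lam (by omega))] at h1 h2
  have h3 := bd_step (sh N lam) (sh (N + 1) lam) (by
    unfold sh
    simp only [Fin.val_zero]
    rw [pad_of_ge lam (by omega)]) (by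
    intro i
    unfold sh
    simp only [Fin.val_succ]
    have e : N + 1 - 1 - ((i : ℕ) + 1) = N - 1 - i := by omega
    rw [e]
    omega)
  rw [← h1, ← h2] at h3
  have h4 : ∏ i : Fin N, ((sh N lam i : ℤ) + 1) = ((∏ k ∈ range N, (pad lam k + (N - k)) : ℕ) : ℤ) := by
    rw [← Finset.prod_range_reflect, Finset.prod_range]
    push_cast
    refine Finset.prod_congr rfl (fun i _ => ?_)
    have hi := i.2
    unfold sh
    have e : ((N - (N - 1 - (i : ℕ)) : ℕ) : ℤ) = (i : ℤ) + 1 := by omega
    rw [e]
    push_cast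
    ring
  rw [h4] at h3
  exact_mod_cast h3

/-- the growth of one column -/
lemma prod_ge (N : ℕ) (lam : ℕ → ℕ) (L m : ℕ) (hL : ∀ k, lam k ≤ L)
    (hm : m ≤ ∑ k ∈ range N, lam k) (hN : 0 < N) :
    (N.factorial : ℝ) * Real.exp ((m : ℝ) / (N + L)) ≤
      ∏ k ∈ range N, ((lam k : ℝ) + ((N - k : ℕ) : ℝ)) := by
  have hNr : (0 : ℝ) < N := by exact_mod_cast hN
  have hfac : (N.factorial : ℝ) = ∏ k ∈ range N, ((N - k : ℕ) : ℝ) := by
    rw [← Finset.prod_range_reflect, ← Finset.prod_range_add_one_eq_factorial]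
    push_cast
    refine Finset.prod_congr rfl (fun k hk => ?_)
    rw [Finset.mem_range] at hk
    have : (N - (N - 1 - k) : ℕ) = k + 1 := by omega
    rw [this]
    push_cast
    ring
  have hexp : Real.exp ((m : ℝ) / (N + L)) ≤
      ∏ k ∈ range N, Real.exp ((lam k : ℝ) / (N + L)) := by
    rw [← Real.exp_sum, ← Finset.sum_div]
    apply Real.exp_le_exp.2
    apply div_le_div_of_nonneg_right _ (by positivity)
    exact_mod_cast hm
  have hfac0 : (0 : ℝ) ≤ N.factorial := by positivity
  refine le_trans (mul_le_mul_of_nonneg_left hexp hfac0) ?_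
  rw [hfac, ← Finset.prod_mul_distrib]
  refine Finset.prod_le_prod (fun k hk => by positivity) (fun k hk => ?_)
  rw [Finset.mem_range] at hk
  -- one factor
  have hk1 : (1 : ℝ) ≤ ((N - k : ℕ) : ℝ) := by
    have : 1 ≤ N - k := by omega
    exact_mod_cast this
  have hk2 : ((N - k : ℕ) : ℝ) ≤ N := by
    have : N - k ≤ N := by omega
    exact_mod_cast this
  set x : ℝ := ((N - k : ℕ) : ℝ) with hx
  set l : ℝ := (lam k : ℝ) with hl
  have hl0 : 0 ≤ l := by positivity
  have hlL : l ≤ L := by
    rw [hl]
    exact_mod_cast hL k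
  have hx0 : 0 < x := by linarith
  -- `exp (l / (N + L)) ≤ 1 / (1 - l / (N + L))`
  have hpos : 0 < (N : ℝ) + L - l := by linarith
  have hNL : 0 < (N : ℝ) + L := by linarith
  have h1 : Real.exp (l / (N + L)) ≤ ((N : ℝ) + L) / (N + L - l) := by
    have h2 := Real.add_one_le_exp (-(l / (N + L)))
    have h3 : 0 < -(l / ((N : ℝ) + L)) + 1 := by
      have : l / ((N : ℝ) + L) < 1 := by
        rw [div_lt_one hNL]
        linarith
      linarith
    have h4 : Real.exp (l / (N + L)) = (Real.exp (-(l / (N + L))))⁻¹ := by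
      rw [Real.exp_neg, inv_inv]
    rw [h4]
    have h5 : ((N : ℝ) + L) / (N + L - l) = (-(l / ((N : ℝ) + L)) + 1)⁻¹ := by
      rw [eq_comm, inv_eq_iff_eq_inv, inv_div]
      field_simp
      ring
    rw [h5]
    exact inv_anti₀ h3 h2
  have h6 : ((N : ℝ) + L) / (N + L - l) ≤ (l + x) / x := by
    rw [div_le_div_iff₀ hpos hx0]
    nlinarith
  calc x * Real.exp (l / (N + L)) ≤ x * ((l + x) / x) :=
        mul_le_mul_of_nonneg_left (h1.trans h6) hx0.le
    _ = l + x := by field_simp

/-- growth, one step -/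
theorem gt_growth_step {n N : ℕ} (hn : n ≤ N) (hN : 0 < N) {lam : Fin n → ℕ} (hl : Antitone lam)
    {L : ℕ} (hL : ∀ i, lam i ≤ L) :
    (gt n N lam : ℝ) * Real.exp (((∑ i, lam i : ℕ) : ℝ) / (N + L)) ≤ gt n (N + 1) lam := by
  have h1 := gt_step hn hl
  have h2 : (N.factorial : ℝ) * gt n (N + 1) lam =
      gt n N lam * ∏ k ∈ range N, ((pad lam k : ℝ) + ((N - k : ℕ) : ℝ)) := by
    exact_mod_cast h1
  have h3 : ∑ i, lam i ≤ ∑ k ∈ range N, pad lam k := by
    have e : ∑ i, lam i = ∑ k ∈ range n, pad lam k := by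
      rw [Finset.sum_range]
      exact Finset.sum_congr rfl (fun i _ => (pad_of_lt lam i.2).symm)
    rw [e]
    exact Finset.sum_le_sum_of_subset (Finset.range_mono hn)
  have hL' : ∀ k, pad lam k ≤ L := by
    intro k
    by_cases hk : k < n
    · rw [pad_of_lt lam hk]; exact hL _
    · rw [pad_of_ge lam (by omega)]; exact Nat.zero_le _
  have h4 := prod_ge N (pad lam) L (∑ i, lam i) hL' h3 hN
  have hf : (0 : ℝ) < N.factorial := by exact_mod_cast Nat.factorial_pos N
  have h5 : (N.factorial : ℝ) * ((gt n N lam : ℝ) *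
      Real.exp (((∑ i, lam i : ℕ) : ℝ) / (N + L))) ≤ N.factorial * gt n (N + 1) lam := by
    rw [h2]
    calc (N.factorial : ℝ) * ((gt n N lam : ℝ) * Real.exp (((∑ i, lam i : ℕ) : ℝ) / (N + L))) =
        gt n N lam * (N.factorial * Real.exp (((∑ i, lam i : ℕ) : ℝ) / (N + L))) := by ring
      _ ≤ _ := mul_le_mul_of_nonneg_left h4 (by positivity)
  exact le_of_mul_le_mul_left h5 hf

/-- **growth of the number of the tableaux** -/
theorem gt_growth {n a N : ℕ} (hn : n ≤ a) (ha : 0 < a) (haN : a ≤ N) {lam : Fin n → ℕ}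
    (hl : Antitone lam) {L : ℕ} (hL : ∀ i, lam i ≤ L) :
    (gt n a lam : ℝ) * Real.exp (((N - a : ℕ) : ℝ) * ((∑ i, lam i : ℕ) : ℝ) / (N + L)) ≤
      gt n N lam := by
  -- with the final denominator
  have key : ∀ M, a ≤ M → M ≤ N →
      (gt n a lam : ℝ) * Real.exp (((M - a : ℕ) : ℝ) * ((∑ i, lam i : ℕ) : ℝ) / (N + L)) ≤
        gt n M lam := by
    intro M hM
    induction M, hM using Nat.le_induction with
    | base => intro _; simp
    | succ M hM ih =>
      intro hMN
      have h1 := ih (by omega)
      have h2 := gt_growth_step (hn.trans hM) (by omega) hl hL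
      refine le_trans ?_ h2
      have e : ((M + 1 - a : ℕ) : ℝ) = ((M - a : ℕ) : ℝ) + 1 := by
        have : M + 1 - a = (M - a) + 1 := by omega
        rw [this]
        push_cast
        ring
      rw [e, add_mul, one_mul, add_div, Real.exp_add, ← mul_assoc]
      have hMr : (0 : ℝ) < M := by
        have : 0 < M := by omega
        exact_mod_cast this
      refine mul_le_mul h1 ?_ (by positivity) (by positivity)
      apply Real.exp_le_exp.2
      apply div_le_div_of_nonneg_left (by positivity) (by positivity)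
      have : (M : ℝ) ≤ N := by exact_mod_cast (by omega : M ≤ N)
      linarith
  exact key N haN le_rfl

end Vale.Agent.P181.H539
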