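import Mathlib
import Vale.Agent.P181.H539.Weyl

/-! Growth of the number of Gelfand-Tsetlin patterns, product form. -/

set_option linter.all false

open Finset

namespace Vale.Agent.P181.H539

open Vale.Agent.P181.H463 (nxt strips gt)

/-- the growth of one column, product form -/
lemma prod_ge' (M N : ℕ) (lam : ℕ → ℕ) (hMN : M ≤ N) (hM : 0 < M) :
    (M.factorial : ℝ) * ∏ k ∈ range M, (1 + (lam k : ℝ) / N) ≤
      ∏ k ∈ range M, ((lam k : ℝ) + ((M - k : ℕ) : ℝ)) := by
  have hfac : (M.factorial : ℝ) = ∏ k ∈ range M, ((M - k : ℕ) : ℝ) := by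
    rw [← Finset.prod_range_reflect, ← Finset.prod_range_add_one_eq_factorial]
    push_cast
    refine Finset.prod_congr rfl (fun k hk => ?_)
    rw [Finset.mem_range] at hk
    have : (M - (M - 1 - k) : ℕ) = k + 1 := by omega
    rw [this]
    push_cast
    ring
  rw [hfac, ← Finset.prod_mul_distrib]
  refine Finset.prod_le_prod (fun k hk => by positivity) (fun k hk => ?_)
  rw [Finset.mem_range] at hk
  have hk2 : ((M - k : ℕ) : ℝ) ≤ N := by
    have : M - k ≤ N := by omega
    exact_mod_cast this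
  have hN : (0 : ℝ) < N := by
    have : 0 < N := by omega
    exact_mod_cast this
  have hl0 : (0 : ℝ) ≤ lam k := by positivity
  rw [mul_add, mul_one, add_comm]
  have : ((M - k : ℕ) : ℝ) * ((lam k : ℝ) / N) ≤ lam k := by
    calc ((M - k : ℕ) : ℝ) * ((lam k : ℝ) / N) ≤ N * ((lam k : ℝ) / N) := by gcongr
      _ = lam k := by field_simp
  linarith

lemma prod_pad {n M : ℕ} (hn : n ≤ M) (lam : Fin n → ℕ) (N : ℕ) :
    ∏ k ∈ range M, (1 + (pad lam k : ℝ) / N) = ∏ i, (1 + (lam i : ℝ) / N) := by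
  have e : ∏ i, (1 + (lam i : ℝ) / N) = ∏ k ∈ range n, (1 + (pad lam k : ℝ) / N) := by
    rw [Finset.prod_range]
    exact Finset.prod_congr rfl (fun i _ => by rw [pad_of_lt lam i.2])
  rw [e]
  symm
  refine Finset.prod_subset (Finset.range_mono hn) (fun k _ hk => ?_)
  rw [Finset.mem_range, not_lt] at hk
  rw [pad_of_ge lam hk]
  simp

/-- growth, one step, product form -/
theorem gt_growth_prod_step {n M N : ℕ} (hn : n ≤ M) (hM : 0 < M) (hMN : M ≤ N) {lam : Fin n → ℕ}
    (hl : Antitone lam) :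
    (gt n M lam : ℝ) * (∏ i, (1 + (lam i : ℝ) / N)) ≤ gt n (M + 1) lam := by
  have h1 := gt_step hn hl
  have h2 : (M.factorial : ℝ) * gt n (M + 1) lam =
      gt n M lam * ∏ k ∈ range M, ((pad lam k : ℝ) + ((M - k : ℕ) : ℝ)) := by
    exact_mod_cast h1
  have h4 := prod_ge' M N (pad lam) hMN hM
  rw [prod_pad hn] at h4
  have hf : (0 : ℝ) < M.factorial := by exact_mod_cast Nat.factorial_pos M
  have h5 : (M.factorial : ℝ) * ((gt n M lam : ℝ) * (∏ i, (1 + (lam i : ℝ) / N))) ≤
      M.factorial * gt n (M + 1) lam := by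
    rw [h2]
    calc (M.factorial : ℝ) * ((gt n M lam : ℝ) * (∏ i, (1 + (lam i : ℝ) / N))) =
        gt n M lam * (M.factorial * (∏ i, (1 + (lam i : ℝ) / N))) := by ring
      _ ≤ _ := mul_le_mul_of_nonneg_left h4 (by positivity)
  exact le_of_mul_le_mul_left h5 hf

/-- **growth of the number of the tableaux, product form** -/
theorem gt_growth_prod {n a N : ℕ} (hn : n ≤ a) (ha : 0 < a) (haN : a ≤ N) {lam : Fin n → ℕ}
    (hl : Antitone lam) :
    (gt n a lam : ℝ) * (∏ i, (1 + (lam i : ℝ) / N)) ^ (N - a) ≤ gt n N lam := by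
  have key : ∀ M, a ≤ M → M ≤ N →
      (gt n a lam : ℝ) * (∏ i, (1 + (lam i : ℝ) / N)) ^ (M - a) ≤ gt n M lam := by
    intro M hM
    induction M, hM using Nat.le_induction with
    | base => intro _; simp
    | succ M hM ih =>
      intro hMN
      have h1 := ih (by omega)
      have h2 := gt_growth_prod_step (hn.trans hM) (by omega) (by omega : M ≤ N) hl
      refine le_trans ?_ h2
      have e : M + 1 - a = (M - a) + 1 := by omega
      rw [e, pow_succ, ← mul_assoc]
      have hp : 0 ≤ ∏ i, (1 + (lam i : ℝ) / N) := Finset.prod_nonneg (fun i _ => by positivity)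
      exact mul_le_mul_of_nonneg_right h1 hp
  exact key N haN le_rfl

/-- the first `l` rows are at least `n0` -/
theorem gt_growth_rows {n a N l n0 : ℕ} (hn : n ≤ a) (ha : 0 < a) (haN : a ≤ N) {lam : Fin n → ℕ}
    (hl : Antitone lam) (hln : l ≤ n) (h0 : ∀ i : Fin n, (i : ℕ) < l → n0 ≤ lam i) :
    (gt n a lam : ℝ) * (1 + (n0 : ℝ) / N) ^ (l * (N - a)) ≤ gt n N lam := by
  refine le_trans ?_ (gt_growth_prod hn ha haN hl)
  refine mul_le_mul_of_nonneg_left ?_ (by positivity)
  rw [pow_mul]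
  refine pow_le_pow_left₀ (by positivity) ?_ _
  have e : ∏ k ∈ range n, (1 + (pad lam k : ℝ) / N) = ∏ i, (1 + (lam i : ℝ) / N) :=
    prod_pad le_rfl lam N
  rw [← e]
  have h1 : (1 + (n0 : ℝ) / N) ^ l = ∏ k ∈ range l, (1 + (n0 : ℝ) / N) := by
    rw [Finset.prod_const, Finset.card_range]
  rw [h1]
  calc ∏ k ∈ range l, (1 + (n0 : ℝ) / N) ≤ ∏ k ∈ range l, (1 + (pad lam k : ℝ) / N) := by
        refine Finset.prod_le_prod (fun k _ => by positivity) (fun k hk => ?_)
        rw [Finset.mem_range] at hk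
        rw [pad_of_lt lam (by omega)]
        have : (n0 : ℝ) ≤ lam ⟨k, by omega⟩ := by exact_mod_cast h0 _ hk
        gcongr
    _ ≤ ∏ k ∈ range n, (1 + (pad lam k : ℝ) / N) := by
        rw [← Finset.prod_sdiff (Finset.range_mono hln : range l ⊆ range n)]
        refine le_mul_of_one_le_left (Finset.prod_nonneg fun k _ => by positivity) ?_
        calc (1 : ℝ) = ∏ k ∈ range n \ range l, (1 : ℝ) := by simp
          _ ≤ _ := by
            refine Finset.prod_le_prod (fun _ _ => zero_le_one) (fun k _ => ?_)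
            have : (0 : ℝ) ≤ (pad lam k : ℝ) / N := by positivity
            linarith

end Vale.Agent.P181.H539
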