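import Vale.Agent.P181.H583.HWDef
import Vale.Agent.P181.H539.Weyl

set_option autoImplicit false
set_option linter.unusedSectionVars false
set_option linter.unusedSimpArgs false
set_option linter.unusedVariables false

/-!
# The upper branching bound

The dimension of the space of highest weight polynomials of weight `lam` in `N` columns is at most
the number of semistandard tableaux of shape `lam` with `N` letters.
-/

open MvPolynomial
open Vale.Agent.P181.T4
open Vale.Agent.P181.H463 (gt nxt strips)

namespace Vale.Agent.P181.H539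

section Sl2

variable {K M : Type*} [Field K] [CharZero K] [AddCommGroup M] [Module K M]

/-- Weight spaces `W α` of weight `2 α - s` with raising operator `E` and lowering operator
`F`. -/
structure IsSl2 (E F : M →ₗ[K] M) (W : ℤ → Submodule K M) (s : ℤ) : Prop where
  up : ∀ α, ∀ x ∈ W α, E x ∈ W (α + 1)
  down : ∀ α, ∀ x ∈ W α, F x ∈ W (α - 1)
  neg : ∀ α, α < 0 → ∀ x ∈ W α, x = 0
  comm : ∀ α, ∀ x ∈ W α, E (F x) - F (E x) = ((2 * α - s : ℤ) : K) • x

variable {E F : M →ₗ[K] M} {W : ℤ → Submodule K M} {s : ℤ}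

theorem IsSl2.up_pow (h : IsSl2 E F W s) {α : ℤ} {x : M} (hx : x ∈ W α) (k : ℕ) :
    (E ^ k) x ∈ W (α + k) := by
  induction k with
  | zero => simpa using hx
  | succ k ih =>
    have h1 := h.up _ _ ih
    have h2 : (E ^ (k + 1)) x = E ((E ^ k) x) := by rw [pow_succ']; rfl
    rw [h2]
    push_cast
    rw [← add_assoc]
    exact h1

theorem IsSl2.down_pow (h : IsSl2 E F W s) {α : ℤ} {x : M} (hx : x ∈ W α) (k : ℕ) :
    (F ^ k) x ∈ W (α - k) := by
  induction k with
  | zero => simpa using hx
  | succ k ih =>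
    have h1 := h.down _ _ ih
    have h2 : (F ^ (k + 1)) x = F ((F ^ k) x) := by rw [pow_succ']; rfl
    rw [h2]
    push_cast
    rw [← sub_sub]
    exact h1

theorem IsSl2.key (h : IsSl2 E F W s) {α : ℤ} {u : M} (hu : u ∈ W α) (k : ℕ) :
    (E ^ k) (F (E u)) =
      F ((E ^ (k + 1)) u) + ((k * (2 * α - s + k + 1) : ℤ) : K) • (E ^ k) u := by
  induction k with
  | zero => simp
  | succ k ih =>
    have h1 : (E ^ (k + 1)) (F (E u)) = E ((E ^ k) (F (E u))) := by rw [pow_succ']; rfl
    have h2 := h.comm _ _ (h.up_pow hu (k + 1))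
    have h3 : E ((E ^ k) u) = (E ^ (k + 1)) u := by rw [pow_succ' E k]; rfl
    have h4 : E ((E ^ (k + 1)) u) = (E ^ (k + 1 + 1)) u := by rw [pow_succ' E (k + 1)]; rfl
    rw [h4, sub_eq_iff_eq_add] at h2
    rw [h1, ih, map_add, map_smul, h2, h3, add_comm _ (F _), add_assoc, ← add_smul]
    congr 2
    push_cast
    ring

/-- An eigenvector of `F E` with nonpositive eigenvalue in a negative weight space is zero. -/
theorem IsSl2.eig (h : IsSl2 E F W s) {α : ℤ} {u : M} (hu : u ∈ W α) {c : ℤ} (hc : c ≤ 0)
    (hα : 2 * α - s < 0) (he : F (E u) = (c : K) • u) : u = 0 := by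
  have h1 : ∀ m : ℕ, E ((F ^ (m + 1)) u) =
      ((c + (m + 1) * (2 * α - s - m) : ℤ) : K) • (F ^ m) u := by
    intro m
    induction m with
    | zero =>
      have h2 := h.comm _ _ hu
      rw [he, sub_eq_iff_eq_add, ← add_smul] at h2
      rw [zero_add, pow_one, pow_zero, h2, Module.End.one_apply]
      congr 1
      push_cast
      ring
    | succ m ih =>
      have h2 := h.comm _ _ (h.down_pow hu (m + 1))
      rw [ih, map_smul, sub_eq_iff_eq_add] at h2
      have h3 : F ((F ^ m) u) = (F ^ (m + 1)) u := by rw [pow_succ' F m]; rfl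
      have h4 : F ((F ^ (m + 1)) u) = (F ^ (m + 1 + 1)) u := by rw [pow_succ' F (m + 1)]; rfl
      rw [h3, h4, ← add_smul] at h2
      rw [h2]
      congr 1
      push_cast
      ring
  have h2 : ∀ m : ℕ, (F ^ m) u = 0 → u = 0 := by
    intro m
    induction m with
    | zero => intro hm; simpa using hm
    | succ m ih =>
      intro hm
      apply ih
      have h3 := h1 m
      rw [hm, map_zero] at h3
      rcases smul_eq_zero.mp h3.symm with h4 | h4
      · exfalso
        rw [Int.cast_eq_zero] at h4
        have h5 : (0 : ℤ) ≤ m := Int.natCast_nonneg m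
        nlinarith
      · exact h4
  refine h2 (α.toNat + 1) (h.neg _ ?_ _ (h.down_pow hu _))
  push_cast
  omega

/-- `E ^ k` is injective on the weight space of weight `2 α - s` if `k ≤ -(2 α - s)`. -/
theorem IsSl2.pow_inj (h : IsSl2 E F W s) {α : ℤ} (k : ℕ) {u : M} (hu : u ∈ W α)
    (hk : 2 * α - s + k ≤ 0) (he : (E ^ k) u = 0) : u = 0 := by
  induction k generalizing u with
  | zero => simpa using he
  | succ k ih =>
    push_cast at hk
    have h1 := h.key hu k
    rw [he, map_zero, zero_add] at h1
    have hFE : F (E u) ∈ W α := by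
      have := h.down _ _ (h.up _ _ hu)
      rwa [add_sub_cancel_right] at this
    have h2 : F (E u) - ((k * (2 * α - s + k + 1) : ℤ) : K) • u = 0 := by
      apply ih (Submodule.sub_mem _ hFE (Submodule.smul_mem _ _ hu)) (by omega)
      rw [map_sub, map_smul, h1, sub_self]
    rw [sub_eq_zero] at h2
    refine h.eig hu ?_ (by omega) h2
    have h5 : (0 : ℤ) ≤ k := Int.natCast_nonneg k
    nlinarith

end Sl2

section Row

variable {n : ℕ} {σ : Type} [Fintype σ]

theorem rowOp_add (a b : Fin n) (f g : MvPolynomial (Fin n × σ) ℂ) :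
    rowOp a b (f + g) = rowOp a b f + rowOp a b g := map_add _ _ _

/-- `rowOp` as a derivation. -/
noncomputable def rowDer (s i : Fin n) :
    Derivation ℂ (MvPolynomial (Fin n × σ) ℂ) (MvPolynomial (Fin n × σ) ℂ) :=
  mkDerivation ℂ (fun v => if v.1 = i then X (s, v.2) else 0)

theorem rowDer_X (s i : Fin n) (v : Fin n × σ) :
    rowDer s i (X v : MvPolynomial (Fin n × σ) ℂ) = if v.1 = i then X (s, v.2) else 0 := by
  rw [rowDer, mkDerivation_X]

theorem rowOp_eq_rowDer (s i : Fin n) (f : MvPolynomial (Fin n × σ) ℂ) :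
    rowOp s i f = rowDer s i f := by
  classical
  have hsum : ∀ g : MvPolynomial (Fin n × σ) ℂ,
      (∑ j, (X (s, j) : MvPolynomial (Fin n × σ) ℂ) • pderiv (R := ℂ) (i, j) :
        Derivation ℂ (MvPolynomial (Fin n × σ) ℂ) (MvPolynomial (Fin n × σ) ℂ)) g =
      ∑ j, X (s, j) * pderiv (i, j) g := by
    intro g
    have h1 := congrFun (map_sum (Derivation.coeFnAddMonoidHom (R := ℂ)
      (A := MvPolynomial (Fin n × σ) ℂ) (M := MvPolynomial (Fin n × σ) ℂ))
      (fun j : σ => (X (s, j) : MvPolynomial (Fin n × σ) ℂ) • pderiv (R := ℂ) (i, j))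
      Finset.univ) g
    rw [Finset.sum_apply] at h1
    exact h1
  have h : (∑ j, (X (s, j) : MvPolynomial (Fin n × σ) ℂ) • pderiv (R := ℂ) (i, j) :
      Derivation ℂ (MvPolynomial (Fin n × σ) ℂ) (MvPolynomial (Fin n × σ) ℂ)) =
      rowDer s i := by
    apply derivation_ext
    rintro ⟨a, j⟩
    rw [rowDer_X, hsum]
    by_cases ha : a = i
    · subst ha
      rw [if_pos rfl, Finset.sum_eq_single j]
      · rw [pderiv_X_self, mul_one]
      · intro k _ hk
        rw [pderiv_X_of_ne, mul_zero]
        intro h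
        exact hk (Prod.ext_iff.mp h).2.symm
      · intro hh
        exact absurd (Finset.mem_univ _) hh
    · rw [if_neg ha]
      apply Finset.sum_eq_zero
      intro k _
      rw [pderiv_X_of_ne, mul_zero]
      intro h
      exact ha (Prod.ext_iff.mp h).1
  rw [rowOp_apply, ← h, hsum]

theorem row_comm {a b : Fin n} (hab : a ≠ b) (f : MvPolynomial (Fin n × σ) ℂ) :
    rowOp a b (rowOp b a f) - rowOp b a (rowOp a b f) = rowOp a a f - rowOp b b f := by
  have h : ⁅(rowDer a b : Derivation ℂ (MvPolynomial (Fin n × σ) ℂ)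
        (MvPolynomial (Fin n × σ) ℂ)),
      (rowDer b a : Derivation ℂ (MvPolynomial (Fin n × σ) ℂ)
        (MvPolynomial (Fin n × σ) ℂ))⁆ = rowDer a a - rowDer b b := by
    apply derivation_ext
    intro v
    rw [Derivation.commutator_apply, Derivation.sub_apply, rowDer_X, rowDer_X, rowDer_X,
      rowDer_X]
    by_cases h1 : v.1 = a
    · have h2 : v.1 ≠ b := fun h => hab (h1.symm.trans h)
      rw [if_pos h1, if_neg h2, if_pos h1, if_neg h2, map_zero, sub_zero, sub_zero, rowDer_X,
        if_pos rfl]
    · by_cases h2 : v.1 = b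
      · rw [if_neg h1, if_pos h2, if_neg h1, if_pos h2, map_zero, zero_sub, zero_sub, rowDer_X,
          if_pos rfl]
      · rw [if_neg h1, if_neg h2, if_neg h1, if_neg h2, map_zero, map_zero, sub_zero]
  have h1 := congrArg (fun D => D f) h
  simp only [rowOp_eq_rowDer]
  simpa [Derivation.commutator_apply] using h1

theorem rowOp_monomial [DecidableEq σ] (s i : Fin n) (m : Fin n × σ →₀ ℕ) (c : ℂ) :
    rowOp s i (monomial m c) =
      ∑ j : σ, (m (i, j) : ℂ) •
        monomial (m - Finsupp.single (i, j) 1 + Finsupp.single (s, j) 1) c := by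
  rw [rowOp_apply]
  refine Finset.sum_congr rfl fun j _ => ?_
  rw [pderiv_monomial, X, monomial_mul, one_mul, smul_monomial, smul_eq_mul, mul_comm c,
    add_comm (Finsupp.single _ _)]

/-- The coefficients of a partial derivative. -/
theorem coeff_pd {τ : Type*} (p : τ) (f : MvPolynomial τ ℂ) (w : τ →₀ ℕ) :
    coeff w (pderiv p f) = ((w p : ℂ) + 1) * coeff (w + Finsupp.single p 1) f := by
  classical
  induction f using MvPolynomial.induction_on' with
  | monomial u a =>
    rw [pderiv_monomial, coeff_monomial, coeff_monomial]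
    by_cases h : u = w + Finsupp.single p 1
    · have h1 : u - Finsupp.single p 1 = w := by rw [h, add_tsub_cancel_right]
      have h2 : u p = w p + 1 := by rw [h]; simp
      rw [if_pos h1, if_pos h, h2]
      push_cast
      ring
    · rw [if_neg h, mul_zero]
      by_cases h1 : u - Finsupp.single p 1 = w
      · have h2 : u p = 0 := by
          by_contra h2
          apply h
          rw [← h1, tsub_add_cancel_of_le]
          rw [Finsupp.single_le_iff]
          omega
        rw [if_pos h1, h2]
        simp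
      · rw [if_neg h1]
  | add f g hf hg => rw [map_add, coeff_add, hf, hg, coeff_add, mul_add]

/-- The coefficients of `rowOp`. -/
theorem coeff_rowOp (s i : Fin n) (f : MvPolynomial (Fin n × σ) ℂ) (v : Fin n × σ →₀ ℕ) :
    coeff v (rowOp s i f) = ∑ j, if v (s, j) = 0 then 0 else
      ((((v - Finsupp.single (s, j) 1 : Fin n × σ →₀ ℕ) (i, j) : ℕ) : ℂ) + 1) *
        coeff (v - Finsupp.single (s, j) 1 + Finsupp.single (i, j) 1) f := by
  classical
  rw [rowOp_apply, coeff_sum]
  refine Finset.sum_congr rfl fun j _ => ?_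
  rw [coeff_X_mul', coeff_pd]
  by_cases h : v (s, j) = 0
  · rw [if_pos h, if_neg (by rwa [Finsupp.notMem_support_iff])]
  · rw [if_neg h, if_pos (by rwa [Finsupp.mem_support_iff])]

/-- The polynomials with row degrees `d` (integer version). -/
def RZ (σ : Type) [Fintype σ] (d : Fin n → ℤ) : Submodule ℂ (MvPolynomial (Fin n × σ) ℂ) where
  carrier := {f | ∀ m, coeff m f ≠ 0 → ∀ i, ((∑ j, m (i, j) : ℕ) : ℤ) = d i}
  add_mem' := by
    intro f g hf hg m hm j
    rw [coeff_add] at hm
    by_cases h : coeff m f = 0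
    · exact hg m (by rwa [h, zero_add] at hm) j
    · exact hf m h j
  zero_mem' := by
    intro m hm
    exact absurd (coeff_zero m) hm
  smul_mem' := by
    intro c f hf m hm j
    rw [coeff_smul] at hm
    exact hf m (fun h => hm (by rw [h, smul_zero])) j

theorem mem_RZ {d : Fin n → ℤ} {f : MvPolynomial (Fin n × σ) ℂ} :
    f ∈ RZ σ d ↔ ∀ m, coeff m f ≠ 0 → ∀ i, ((∑ j, m (i, j) : ℕ) : ℤ) = d i := Iff.rfl

theorem rowOp_mem {d d' : Fin n → ℤ} {s i : Fin n}
    (hd : ∀ k, d' k = d k + (if k = s then 1 else 0) - (if k = i then 1 else 0))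
    {f : MvPolynomial (Fin n × σ) ℂ} (hf : f ∈ RZ σ d) : rowOp s i f ∈ RZ σ d' := by
  classical
  rw [mem_RZ]
  intro v hv k
  rw [coeff_rowOp] at hv
  obtain ⟨j, _, hj⟩ := Finset.exists_ne_zero_of_sum_ne_zero hv
  by_cases h0 : v (s, j) = 0
  · rw [if_pos h0] at hj
    exact absurd rfl hj
  rw [if_neg h0] at hj
  have h1 := hf _ (right_ne_zero_of_mul hj) k
  have key : ∀ r, ((v (k, r) : ℕ) : ℤ) =
      ((v - Finsupp.single (s, j) 1 + Finsupp.single (i, j) 1 : Fin n × σ →₀ ℕ) (k, r) : ℕ) +
        (if r = j then (if k = s then 1 else 0) else 0) -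
        (if r = j then (if k = i then 1 else 0) else 0) := by
    intro r
    rw [Finsupp.add_apply, Finsupp.tsub_apply, Finsupp.single_apply, Finsupp.single_apply]
    by_cases hr : r = j
    · subst hr
      by_cases hs : k = s
      · subst hs
        by_cases hi : k = i
        · subst hi; simp; omega
        · simp [hi, Ne.symm hi]; omega
      · by_cases hi : k = i
        · subst hi; simp [hs, Ne.symm hs]
        · simp [hs, hi, Ne.symm hs, Ne.symm hi]
    · simp [hr, Ne.symm hr]
  rw [Nat.cast_sum, Finset.sum_congr rfl (fun r _ => key r), Finset.sum_sub_distrib,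
    Finset.sum_add_distrib, Finset.sum_ite_eq' Finset.univ j, Finset.sum_ite_eq' Finset.univ j,
    if_pos (Finset.mem_univ j), if_pos (Finset.mem_univ j), hd k, ← h1, Nat.cast_sum]

theorem rowOp_self {d : Fin n → ℤ} (i : Fin n) {f : MvPolynomial (Fin n × σ) ℂ}
    (hf : f ∈ RZ σ d) : rowOp i i f = ((d i : ℤ) : ℂ) • f := by
  classical
  ext v
  rw [coeff_rowOp, coeff_smul, smul_eq_mul]
  have h1 : ∀ j, (if v (i, j) = 0 then 0 else
      ((((v - Finsupp.single (i, j) 1 : Fin n × σ →₀ ℕ) (i, j) : ℕ) : ℂ) + 1) *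
        coeff (v - Finsupp.single (i, j) 1 + Finsupp.single (i, j) 1) f) =
      (v (i, j) : ℂ) * coeff v f := by
    intro j
    by_cases h : v (i, j) = 0
    · rw [if_pos h, h]; simp
    · rw [if_neg h, tsub_add_cancel_of_le (by rw [Finsupp.single_le_iff]; omega)]
      congr 1
      rw [Finsupp.tsub_apply, Finsupp.single_eq_same, Nat.cast_sub (by omega)]
      push_cast
      ring
  rw [Finset.sum_congr rfl (fun j _ => h1 j), ← Finset.sum_mul]
  by_cases h : coeff v f = 0
  · rw [h, mul_zero, mul_zero]
  · rw [← hf v h i]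
    push_cast
    rfl

theorem RZ_eq_zero {d : Fin n → ℤ} {f : MvPolynomial (Fin n × σ) ℂ} (hf : f ∈ RZ σ d)
    {i : Fin n} (hi : d i < 0) : f = 0 := by
  ext m
  rw [coeff_zero]
  by_contra h
  have := hf m h i
  omega

/-- The weight spaces of the `sl_2` of the rows `a`, `b`. -/
theorem isSl2_row {a b : Fin n} (hab : a ≠ b) (d : Fin n → ℤ) :
    IsSl2 (K := ℂ) (rowOp (σ := σ) a b) (rowOp b a)
      (fun α => RZ σ (fun k => if k = a then α else if k = b then d a + d b - α else d k))
      (d a + d b) where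
  up := by
    intro α x hx
    refine rowOp_mem ?_ hx
    intro k
    by_cases h1 : k = a
    · subst h1; simp [hab]
    · by_cases h2 : k = b
      · subst h2; simp [h1]; ring
      · simp [h1, h2]
  down := by
    intro α x hx
    refine rowOp_mem ?_ hx
    intro k
    by_cases h1 : k = a
    · subst h1; simp [hab]
    · by_cases h2 : k = b
      · subst h2; simp [h1]; ring
      · simp [h1, h2]
  neg := by
    intro α hα x hx
    exact RZ_eq_zero hx (i := a) (by simpa using hα)
  comm := by
    intro α x hx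
    rw [row_comm hab, rowOp_self a hx, rowOp_self b hx, ← sub_smul]
    congr 1
    simp only [if_true, if_neg hab.symm]
    push_cast
    ring

/-- `E ^ k` is injective for `k ≤ d b - d a`. -/
theorem rowOp_pow_inj {a b : Fin n} (hab : a ≠ b) {d : Fin n → ℤ} {k : ℕ}
    (hk : d a + k ≤ d b) {f : MvPolynomial (Fin n × σ) ℂ} (hf : f ∈ RZ σ d)
    (h0 : ((rowOp a b) ^ k) f = 0) : f = 0 := by
  refine (isSl2_row hab d).pow_inj (α := d a) k ?_ (by omega) h0
  have e : (fun k => if k = a then d a else if k = b then d a + d b - d a else d k) = d := by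
    funext k
    by_cases h1 : k = a
    · subst h1; simp
    · by_cases h2 : k = b
      · subst h2; simp [h1]
      · simp [h1, h2]
  show f ∈ RZ σ (fun k => if k = a then d a else if k = b then d a + d b - d a else d k)
  rw [e]
  exact hf

end Row

section Col

variable {n N : ℕ}

/-- The exponent with values `u` in the first `N` columns and `e` in the last column. -/
noncomputable def join (u : Fin n × Fin N →₀ ℕ) (e : Fin n → ℕ) : Fin n × Fin (N + 1) →₀ ℕ :=
  Finsupp.equivFunOnFinite.symm
    (fun p => Fin.lastCases (motive := fun _ => ℕ) (e p.1) (fun j => u (p.1, j)) p.2)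

@[simp] theorem join_castSucc (u : Fin n × Fin N →₀ ℕ) (e : Fin n → ℕ) (i : Fin n) (j : Fin N) :
    join u e (i, Fin.castSucc j) = u (i, j) := by
  simp [join]

@[simp] theorem join_last (u : Fin n × Fin N →₀ ℕ) (e : Fin n → ℕ) (i : Fin n) :
    join u e (i, Fin.last N) = e i := by
  simp [join]

/-- The restriction of an exponent to the first `N` columns. -/
noncomputable def restr (v : Fin n × Fin (N + 1) →₀ ℕ) : Fin n × Fin N →₀ ℕ :=
  Finsupp.equivFunOnFinite.symm (fun p => v (p.1, Fin.castSucc p.2))

@[simp] theorem restr_apply (v : Fin n × Fin (N + 1) →₀ ℕ) (i : Fin n) (j : Fin N) :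
    restr v (i, j) = v (i, Fin.castSucc j) := rfl

theorem restr_join (u : Fin n × Fin N →₀ ℕ) (e : Fin n → ℕ) : restr (join u e) = u := by
  ext ⟨i, j⟩
  simp

theorem ext_col {v w : Fin n × Fin (N + 1) →₀ ℕ}
    (h1 : ∀ i j, v (i, Fin.castSucc j) = w (i, Fin.castSucc j))
    (h2 : ∀ i, v (i, Fin.last N) = w (i, Fin.last N)) : v = w := by
  ext ⟨i, j⟩
  refine Fin.lastCases ?_ (fun j => ?_) j
  · exact h2 i
  · exact h1 i j

theorem join_restr (v : Fin n × Fin (N + 1) →₀ ℕ) :
    join (restr v) (fun i => v (i, Fin.last N)) = v :=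
  ext_col (fun i j => by simp) (fun i => by simp)

/-- The coefficient of the monomial `e` in the last column. -/
noncomputable def cf (e : Fin n → ℕ) :
    MvPolynomial (Fin n × Fin (N + 1)) ℂ →ₗ[ℂ] MvPolynomial (Fin n × Fin N) ℂ :=
  (basisMonomials (Fin n × Fin (N + 1)) ℂ).constr ℂ
    (fun v => if (fun i => v (i, Fin.last N)) = e then monomial (restr v) 1 else 0)

theorem cf_monomial (e : Fin n → ℕ) (v : Fin n × Fin (N + 1) →₀ ℕ) (c : ℂ) :
    cf e (monomial v c) =
      if (fun i => v (i, Fin.last N)) = e then monomial (restr v) c else 0 := by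
  have h : (monomial v c : MvPolynomial (Fin n × Fin (N + 1)) ℂ) =
      c • basisMonomials (Fin n × Fin (N + 1)) ℂ v := by
    rw [coe_basisMonomials, smul_monomial, smul_eq_mul, mul_one]
  rw [h, map_smul, cf, Module.Basis.constr_basis]
  split_ifs
  · rw [smul_monomial, smul_eq_mul, mul_one]
  · rw [smul_zero]

theorem coeff_cf (e : Fin n → ℕ) (f : MvPolynomial (Fin n × Fin (N + 1)) ℂ)
    (u : Fin n × Fin N →₀ ℕ) : coeff u (cf e f) = coeff (join u e) f := by
  classical
  induction f using MvPolynomial.induction_on' with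
  | monomial v a =>
    rw [cf_monomial, coeff_monomial]
    by_cases h : v = join u e
    · subst h
      rw [if_pos rfl, if_pos (by funext i; simp), restr_join, coeff_monomial, if_pos rfl]
    · rw [if_neg h]
      split_ifs with h1
      · rw [coeff_monomial, if_neg]
        intro h2
        apply h
        rw [← join_restr v, h1, h2]
      · exact coeff_zero _
  | add f g hf hg => rw [map_add, coeff_add, hf, hg, coeff_add]

theorem eq_zero_of_cf {f : MvPolynomial (Fin n × Fin (N + 1)) ℂ} (h : ∀ e, cf e f = 0) :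
    f = 0 := by
  ext v
  have h1 := coeff_cf (fun i => v (i, Fin.last N)) f (restr v)
  rw [h, join_restr, coeff_zero] at h1
  rw [← h1, coeff_zero]

theorem cf_rowOp_zero {s i : Fin n} (hsi : s ≠ i) {e : Fin n → ℕ} (he : e s = 0)
    (f : MvPolynomial (Fin n × Fin (N + 1)) ℂ) :
    cf e (rowOp s i f) = rowOp s i (cf e f) := by
  classical
  ext u
  rw [coeff_cf, coeff_rowOp, coeff_rowOp, Fin.sum_univ_castSucc, join_last, if_pos he, add_zero]
  refine Finset.sum_congr rfl fun j _ => ?_
  rw [join_castSucc]
  by_cases h0 : u (s, j) = 0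
  · rw [if_pos h0, if_pos h0]
  rw [if_neg h0, if_neg h0, coeff_cf]
  have h1 : join u e - Finsupp.single (s, Fin.castSucc j) 1 +
      Finsupp.single (i, Fin.castSucc j) 1 =
      join (u - Finsupp.single (s, j) 1 + Finsupp.single (i, j) 1) e := by
    apply ext_col
    · intro k l
      simp [Finsupp.single_apply]
    · intro k
      simp [Finsupp.single_apply, Fin.castSucc_ne_last]
  rw [h1]
  congr 3
  simp [Finsupp.single_apply]

theorem cf_rowOp {s i : Fin n} (hsi : s ≠ i) (g : Fin n → ℕ)
    (f : MvPolynomial (Fin n × Fin (N + 1)) ℂ) :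
    cf (g + Pi.single s 1) (rowOp s i f) = rowOp s i (cf (g + Pi.single s 1) f) +
      ((g i : ℂ) + 1) • cf (g + Pi.single i 1) f := by
  classical
  ext u
  rw [coeff_add, coeff_smul, coeff_cf, coeff_rowOp, coeff_rowOp, Fin.sum_univ_castSucc,
    join_last, if_neg (by simp)]
  congr 1
  · refine Finset.sum_congr rfl fun j _ => ?_
    rw [join_castSucc]
    by_cases h0 : u (s, j) = 0
    · rw [if_pos h0, if_pos h0]
    rw [if_neg h0, if_neg h0, coeff_cf]
    have h1 : join u (g + Pi.single s 1) - Finsupp.single (s, Fin.castSucc j) 1 +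
        Finsupp.single (i, Fin.castSucc j) 1 =
        join (u - Finsupp.single (s, j) 1 + Finsupp.single (i, j) 1) (g + Pi.single s 1) := by
      apply ext_col
      · intro k l
        simp [Finsupp.single_apply]
      · intro k
        simp [Finsupp.single_apply, Fin.castSucc_ne_last]
    rw [h1]
    congr 3
    simp [Finsupp.single_apply]
  · rw [coeff_cf, smul_eq_mul]
    have h1 : join u (g + Pi.single s 1) - Finsupp.single (s, Fin.last N) 1 +
        Finsupp.single (i, Fin.last N) 1 = join u (g + Pi.single i 1) := by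
      apply ext_col
      · intro k l
        simp [Finsupp.single_apply, (Fin.castSucc_ne_last l).symm]
      · intro k
        by_cases hs : k = s
        · subst hs
          simp [Finsupp.single_apply, hsi, hsi.symm, Pi.single_apply]
        · by_cases hi : k = i
          · subst hi
            simp [Finsupp.single_apply, hs, Ne.symm hs, Pi.single_apply]
          · simp [Finsupp.single_apply, hs, hi, Ne.symm hs, Ne.symm hi, Pi.single_apply]
    rw [h1]
    congr 3
    simp [Finsupp.single_apply, hsi, hsi.symm, Pi.single_apply]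

theorem chain {a b : Fin n} (hab : a ≠ b) {f : MvPolynomial (Fin n × Fin (N + 1)) ℂ}
    (h0 : rowOp a b f = 0) {g : Fin n → ℕ} (hg : g b = 0) (p : ℕ) : ∀ r : ℕ,
    ((rowOp a b) ^ p) (cf (g + Pi.single a (r + p)) f) =
      ((-1) ^ p * (p.factorial : ℂ)) • cf (g + Pi.single a r + Pi.single b p) f := by
  induction p with
  | zero =>
    intro r
    simp
  | succ p ih =>
    intro r
    have e1 : g + Pi.single a (r + (p + 1)) = g + Pi.single a (r + 1 + p) := by
      rw [add_assoc r 1 p, add_comm 1 p]
    have e2 : ((rowOp a b) ^ (p + 1)) (cf (g + Pi.single a (r + 1 + p)) f) =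
        rowOp a b (((rowOp a b) ^ p) (cf (g + Pi.single a (r + 1 + p)) f)) := by
      rw [pow_succ']; rfl
    have e3 := cf_rowOp hab (g + Pi.single a r + Pi.single b p) f
    rw [h0, map_zero] at e3
    have e4 : (g + Pi.single a (r + 1) + Pi.single b p : Fin n → ℕ) =
        g + Pi.single a r + Pi.single b p + Pi.single a 1 := by
      rw [Pi.single_add]
      abel
    have e5 : (g + Pi.single a r + Pi.single b p + Pi.single b 1 : Fin n → ℕ) =
        g + Pi.single a r + Pi.single b (p + 1) := by
      rw [Pi.single_add]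
      abel
    have e6 : (g + Pi.single a r + Pi.single b p : Fin n → ℕ) b = p := by
      simp [hg, hab, hab.symm, Pi.single_apply]
    rw [e5, e6] at e3
    have e7 := eq_neg_of_add_eq_zero_left e3.symm
    rw [e1, e2, ih (r + 1), map_smul, e4, e7, smul_neg, smul_smul, ← neg_smul]
    congr 1
    rw [Nat.factorial_succ]
    push_cast
    ring

/-- The row degrees of the coefficients. -/
theorem cf_deg {lam : Fin n → ℕ} {f : MvPolynomial (Fin n × Fin (N + 1)) ℂ}
    (hf : ∀ v : Fin n × Fin (N + 1) →₀ ℕ, coeff v f ≠ 0 → ∀ i, ∑ j, v (i, j) = lam i)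
    (e : Fin n → ℕ) (v : Fin n × Fin N →₀ ℕ) (hv : coeff v (cf e f) ≠ 0) (i : Fin n) :
    ∑ j, v (i, j) + e i = lam i := by
  rw [coeff_cf] at hv
  have h := hf _ hv i
  rw [Fin.sum_univ_castSucc, join_last] at h
  simpa using h

/-- The strip condition for the exponents of the last column. -/
theorem strip_le {a b : Fin n} (hab : a ≠ b) {lam : Fin n → ℕ}
    {f : MvPolynomial (Fin n × Fin (N + 1)) ℂ}
    (hf : ∀ v : Fin n × Fin (N + 1) →₀ ℕ, coeff v f ≠ 0 → ∀ i, ∑ j, v (i, j) = lam i)
    (h0 : rowOp a b f = 0) {e : Fin n → ℕ} (he : rowOp a b (cf e f) = 0)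
    (hne : cf e f ≠ 0) : e a + lam b ≤ lam a := by
  by_contra hcon
  push Not at hcon
  apply hne
  set g : Fin n → ℕ := Function.update e b 0 with hgdef
  have hgb : g b = 0 := by simp [g]
  have hga : g a = e a := by simp [g, Function.update_of_ne hab]
  have h1 := chain hab h0 hgb (e b) 0
  have e1 : (g + Pi.single a 0 + Pi.single b (e b) : Fin n → ℕ) = e := by
    funext k
    by_cases hk : k = b
    · subst hk; simp [g]
    · simp [g, Function.update_of_ne hk, Pi.single_apply, hk]
  rw [e1, zero_add] at h1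
  have h2 : ((rowOp a b) ^ (e b + 1)) (cf (g + Pi.single a (e b)) f) = 0 := by
    have e2 : ((rowOp a b) ^ (e b + 1)) (cf (g + Pi.single a (e b)) f) =
        rowOp a b (((rowOp a b) ^ (e b)) (cf (g + Pi.single a (e b)) f)) := by
      rw [pow_succ']; rfl
    rw [e2, h1, map_smul, he, smul_zero]
  have h3 : cf (g + Pi.single a (e b)) f = 0 := by
    refine rowOp_pow_inj hab (k := e b + 1)
      (d := fun i => (lam i : ℤ) - ((g + Pi.single a (e b) : Fin n → ℕ) i : ℤ)) ?_ ?_ h2
    · simp only [Pi.add_apply, Pi.single_eq_same, Pi.single_eq_of_ne hab.symm, hgb, hga]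
      push_cast
      omega
    · rw [mem_RZ]
      intro v hv i
      have := cf_deg hf _ v hv i
      omega
  rw [h3, map_zero] at h1
  have h4 := smul_eq_zero.mp h1.symm
  rcases h4 with h4 | h4
  · exfalso
    rcases mul_eq_zero.mp h4 with h5 | h5
    · exact (pow_ne_zero _ (by norm_num)) h5
    · exact (Nat.factorial_ne_zero _) (by exact_mod_cast h5)
  · exact h4

end Col

section Filt

/-- A filtration bound for the dimension. -/
theorem filt {K V P ι : Type*} [Field K] [AddCommGroup V] [Module K V] [FiniteDimensional K V]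
    [AddCommGroup P] [Module K P] (T : Finset ι) (key : ι → ℕ) (c : ι → V →ₗ[K] P)
    (U : ι → Submodule K P) (hfin : ∀ t, FiniteDimensional K (U t))
    (h1 : ∀ f : V, ∀ t ∈ T, (∀ t' ∈ T, key t < key t' → c t' f = 0) → c t f ∈ U t)
    (h2 : ∀ f : V, (∀ t ∈ T, c t f = 0) → f = 0) :
    Module.finrank K V ≤ ∑ t ∈ T, Module.finrank K (U t) := by
  classical
  let W : Finset ι → Submodule K V := fun s => ⨅ t ∈ T \ s, LinearMap.ker (c t)
  have hW : ∀ s f, f ∈ W s ↔ ∀ t ∈ T, t ∉ s → c t f = 0 := by
    intro s f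
    simp only [W, Submodule.mem_iInf, Finset.mem_sdiff, LinearMap.mem_ker]
    exact ⟨fun h t ht hs => h t ⟨ht, hs⟩, fun h t ht => h t ht.1 ht.2⟩
  have main : ∀ s : Finset ι, s ⊆ T →
      Module.finrank K (W s) ≤ ∑ t ∈ s, Module.finrank K (U t) := by
    intro s
    refine Finset.induction_on_max_value
      (motive := fun s => s ⊆ T → Module.finrank K (W s) ≤ ∑ t ∈ s, Module.finrank K (U t))
      key s ?_ ?_
    · intro _
      have : W ∅ = ⊥ := by
        rw [Submodule.eq_bot_iff]
        intro f hf
        exact h2 f (fun t ht => (hW _ _).1 hf t ht (Finset.notMem_empty t))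
      rw [this, finrank_bot]
      exact Nat.zero_le _
    · intro a s ha hmax ih hs
      have haT : a ∈ T := hs (Finset.mem_insert_self a s)
      have hsT : s ⊆ T := fun x hx => hs (Finset.mem_insert_of_mem hx)
      have hU : ∀ f : W (insert a s), c a f ∈ U a := by
        intro f
        apply h1 f a haT
        intro t' ht' hlt
        apply (hW _ _).1 f.2 t' ht'
        intro hmem
        rcases Finset.mem_insert.1 hmem with h | h
        · subst h
          exact lt_irrefl _ hlt
        · exact absurd (hmax t' h) (not_le.mpr hlt)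
      let φ : W (insert a s) →ₗ[K] U a :=
        LinearMap.codRestrict (U a) ((c a).comp (W (insert a s)).subtype) hU
      have h3 := LinearMap.finrank_range_add_finrank_ker φ
      have := hfin a
      have h4 : Module.finrank K (LinearMap.range φ) ≤ Module.finrank K (U a) :=
        Submodule.finrank_le _
      have h5 : Module.finrank K (LinearMap.ker φ) ≤ Module.finrank K (W s) := by
        rw [← Submodule.finrank_map_subtype_eq (W (insert a s)) (LinearMap.ker φ)]
        apply Submodule.finrank_mono
        rintro x ⟨y, hy, rfl⟩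
        rw [hW]
        intro t ht hts
        by_cases hta : t = a
        · subst hta
          have hy' : φ y = 0 := hy
          exact congrArg Subtype.val hy'
        · exact (hW _ _).1 y.2 t ht (by
            rw [Finset.mem_insert]
            rintro (h | h)
            · exact hta h
            · exact hts h)
      rw [Finset.sum_insert ha]
      have := ih hsT
      omega
  have hT := main T (Finset.Subset.refl T)
  have hTop : W T = ⊤ := by
    rw [Submodule.eq_top_iff']
    intro f
    rw [hW]
    intro t ht hn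
    exact absurd ht hn
  rw [hTop, finrank_top] at hT
  exact hT

end Filt

/-- The degrees of the last column in a polynomial with row degrees `lam`. -/
theorem cf_le {n N : ℕ} {lam : Fin n → ℕ} {f : MvPolynomial (Fin n × Fin (N + 1)) ℂ}
    (hf : ∀ v : Fin n × Fin (N + 1) →₀ ℕ, coeff v f ≠ 0 → ∀ i, ∑ j, v (i, j) = lam i)
    {e : Fin n → ℕ} (he : cf e f ≠ 0) (i : Fin n) : e i ≤ lam i := by
  obtain ⟨v, hv⟩ := MvPolynomial.ne_zero_iff.1 he
  have := cf_deg hf e v hv i
  omega

/-- Moving the degree down increases the key. -/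
theorem key_lt {n : ℕ} {e : Fin n → ℕ} {s i : Fin n} (hsi : s < i) (hes : e s ≠ 0) :
    ∑ k : Fin n, (k : ℕ) * e k <
      ∑ k : Fin n, (k : ℕ) * (e - Pi.single s 1 + Pi.single i 1 : Fin n → ℕ) k := by
  have h5 : ∀ k : Fin n, (((k : ℕ) * (e - Pi.single s 1 + Pi.single i 1 :
      Fin n → ℕ) k : ℕ) : ℤ) = ((k : ℕ) : ℤ) * (e k : ℤ) -
        (if k = s then ((k : ℕ) : ℤ) else 0) + (if k = i then ((k : ℕ) : ℤ) else 0) := by
    intro k
    by_cases hks : k = s
    · subst hks
      rw [if_pos rfl, if_neg (ne_of_lt hsi), Pi.add_apply, Pi.sub_apply, Pi.single_eq_same,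
        Pi.single_eq_of_ne (ne_of_lt hsi)]
      push_cast [Nat.cast_sub (show 1 ≤ e k by omega)]
      ring
    · by_cases hki : k = i
      · subst hki
        rw [if_neg hks, if_pos rfl, Pi.add_apply, Pi.sub_apply, Pi.single_eq_same,
          Pi.single_eq_of_ne hks]
        push_cast
        simp
        ring
      · rw [if_neg hks, if_neg hki, Pi.add_apply, Pi.sub_apply, Pi.single_eq_of_ne hki,
          Pi.single_eq_of_ne hks]
        push_cast
        simp
  have h6 : ((∑ k : Fin n, (k : ℕ) * e k : ℕ) : ℤ) <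
      ((∑ k : Fin n, (k : ℕ) * (e - Pi.single s 1 + Pi.single i 1 : Fin n → ℕ) k : ℕ) : ℤ) := by
    rw [Nat.cast_sum, Nat.cast_sum, Finset.sum_congr rfl (fun k _ => h5 k),
      Finset.sum_add_distrib, Finset.sum_sub_distrib, Finset.sum_ite_eq' Finset.univ s,
      Finset.sum_ite_eq' Finset.univ i, if_pos (Finset.mem_univ _),
      if_pos (Finset.mem_univ _)]
    have h7 : (s : ℕ) < i := hsi
    push_cast
    omega
  exact_mod_cast h6

/-- The leading coefficient of a highest weight polynomial. -/
theorem lead_mem {n N : ℕ} {lam : Fin n → ℕ} {f : MvPolynomial (Fin n × Fin (N + 1)) ℂ}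
    (hf : f ∈ HW n (Fin (N + 1)) lam) {e : Fin n → ℕ}
    (hmax : ∀ g : Fin n → ℕ, (∀ i, g i ≤ lam i) →
      ∑ i : Fin n, (i : ℕ) * e i < ∑ i : Fin n, (i : ℕ) * g i → cf g f = 0)
    (hz : cf e f ≠ 0) : lam - e ∈ strips lam ∧ cf e f ∈ HW n (Fin N) (lam - e) := by
  have hE : ∀ s i : Fin n, s < i → rowOp s i (cf e f) = 0 := by
    intro s i hsi
    by_cases hes : e s = 0
    · rw [← cf_rowOp_zero (ne_of_lt hsi) hes, hf.2 s i hsi, map_zero]
    · have e1 : (e - Pi.single s 1) + Pi.single s 1 = e := by
        funext k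
        by_cases hk : k = s
        · subst hk; simp; omega
        · simp [Pi.single_apply, hk]
      have h3 := cf_rowOp (ne_of_lt hsi) (e - Pi.single s 1) f
      rw [hf.2 s i hsi, map_zero, e1] at h3
      have h4 : cf (e - Pi.single s 1 + Pi.single i 1) f = 0 := by
        by_contra hne
        exact hne (hmax _ (cf_le hf.1 hne) (key_lt hsi hes))
      rw [h4, smul_zero, add_zero] at h3
      exact h3.symm
  refine ⟨?_, ?_⟩
  · unfold strips
    rw [Fintype.mem_piFinset]
    intro i
    rw [Finset.mem_Icc]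
    refine ⟨?_, by simp⟩
    unfold nxt
    split_ifs with h
    · have h6 : i < (⟨(i : ℕ) + 1, h⟩ : Fin n) := by
        rw [Fin.lt_def]
        exact Nat.lt_succ_self _
      have h7 := strip_le (ne_of_lt h6) hf.1 (hf.2 _ _ h6) (hE _ _ h6) hz
      rw [Pi.sub_apply]
      omega
    · exact Nat.zero_le _
  · rw [mem_HW]
    refine ⟨?_, hE⟩
    intro v hv i
    have := cf_deg hf.1 e v hv i
    rw [Pi.sub_apply]
    omega

/-- The case of no columns. -/
theorem finrank_HW_zero (n : ℕ) (lam : Fin n → ℕ) :
    Module.finrank ℂ (HW n (Fin 0) lam) ≤ gt n 0 lam := by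
  rw [gt]
  split_ifs with h
  · let L : HW n (Fin 0) lam →ₗ[ℂ] ℂ :=
      { toFun := fun f => coeff 0 f.1
        map_add' := fun f g => coeff_add _ _ _
        map_smul' := fun c f => coeff_smul _ _ _ }
    have hL : Function.Injective L := by
      rw [← LinearMap.ker_eq_bot, LinearMap.ker_eq_bot']
      intro f hf
      apply Subtype.ext
      apply MvPolynomial.ext
      intro v
      have hv : v = 0 := by
        ext ⟨i, j⟩
        exact j.elim0
      rw [hv]
      exact hf
    have := LinearMap.finrank_le_finrank_of_injective hL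
    rwa [Module.finrank_self] at this
  · have : HW n (Fin 0) lam = ⊥ := by
      rw [Submodule.eq_bot_iff]
      intro f hf
      apply MvPolynomial.ext
      intro v
      rw [coeff_zero]
      by_contra hv
      apply h
      funext i
      rw [← hf.1 v hv i]
      rfl
    rw [this, finrank_bot]

/-- The branching inequality. -/
theorem finrank_HW_succ (n N : ℕ) (lam : Fin n → ℕ) :
    Module.finrank ℂ (HW n (Fin (N + 1)) lam) ≤
      ∑ mu ∈ strips lam, Module.finrank ℂ (HW n (Fin N) mu) := by
  classical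
  set T : Finset (Fin n → ℕ) := Fintype.piFinset (fun i => Finset.range (lam i + 1)) with hT
  have hmemT : ∀ e, e ∈ T ↔ ∀ i, e i ≤ lam i := by
    intro e
    simp [hT, Fintype.mem_piFinset, Nat.lt_succ_iff]
  obtain ⟨U, hUp, hUn⟩ : ∃ U : (Fin n → ℕ) → Submodule ℂ (MvPolynomial (Fin n × Fin N) ℂ),
      (∀ e, lam - e ∈ strips lam → U e = HW n (Fin N) (lam - e)) ∧
      (∀ e, lam - e ∉ strips lam → U e = ⊥) :=
    ⟨fun e => if lam - e ∈ strips lam then HW n (Fin N) (lam - e) else ⊥,
      fun e h => if_pos h, fun e h => if_neg h⟩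
  have hfin : ∀ e, FiniteDimensional ℂ (U e) := by
    intro e
    by_cases h : lam - e ∈ strips lam
    · rw [hUp e h]; infer_instance
    · rw [hUn e h]; infer_instance
  have h1 : ∑ e ∈ T, Module.finrank ℂ (U e) =
      ∑ e ∈ T.filter (fun e => lam - e ∈ strips lam),
        Module.finrank ℂ (HW n (Fin N) (lam - e)) := by
    rw [Finset.sum_filter]
    refine Finset.sum_congr rfl fun e _ => ?_
    by_cases h : lam - e ∈ strips lam
    · rw [if_pos h, hUp e h]
    · rw [if_neg h, hUn e h, finrank_bot]
  have h2 : ∑ e ∈ T.filter (fun e => lam - e ∈ strips lam),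
      Module.finrank ℂ (HW n (Fin N) (lam - e)) =
      ∑ mu ∈ (T.filter (fun e => lam - e ∈ strips lam)).image (fun e => lam - e),
        Module.finrank ℂ (HW n (Fin N) mu) := by
    rw [Finset.sum_image]
    intro x hx y hy hxy
    have hx' := (hmemT x).1 (Finset.mem_filter.1 hx).1
    have hy' := (hmemT y).1 (Finset.mem_filter.1 hy).1
    funext i
    have := congrFun hxy i
    simp only [Pi.sub_apply] at this
    have h3 := hx' i
    have h4 := hy' i
    omega
  have h3 : ∑ mu ∈ (T.filter (fun e => lam - e ∈ strips lam)).image (fun e => lam - e),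
        Module.finrank ℂ (HW n (Fin N) mu) ≤
      ∑ mu ∈ strips lam, Module.finrank ℂ (HW n (Fin N) mu) := by
    refine Finset.sum_le_sum_of_subset ?_
    intro mu hmu
    obtain ⟨e, he, rfl⟩ := Finset.mem_image.1 hmu
    exact (Finset.mem_filter.1 he).2
  have hbound : Module.finrank ℂ (HW n (Fin (N + 1)) lam) ≤ ∑ e ∈ T, Module.finrank ℂ (U e) := by
    refine filt (K := ℂ) (V := HW n (Fin (N + 1)) lam)
      (P := MvPolynomial (Fin n × Fin N) ℂ) T (fun e => ∑ i : Fin n, (i : ℕ) * e i)
      (fun e => (cf e).comp (HW n (Fin (N + 1)) lam).subtype) U hfin ?_ ?_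
    · rintro ⟨f, hf⟩ e he hmax
      change cf e f ∈ U e
      by_cases hz : cf e f = 0
      · rw [hz]; exact Submodule.zero_mem _
      · obtain ⟨h4, h5⟩ := lead_mem hf (fun g hg hlt => hmax g ((hmemT g).2 hg) hlt) hz
        rw [hUp e h4]
        exact h5
    · rintro ⟨f, hf⟩ hall
      apply Subtype.ext
      apply eq_zero_of_cf
      intro e
      by_contra hne
      exact hne (hall e ((hmemT e).2 (cf_le hf.1 hne)))
  rw [h1, h2] at hbound
  exact hbound.trans h3

/-- **The upper branching bound.** -/
theorem finrank_HW_le_gt (n N : ℕ) {lam : Fin n → ℕ} (hl : Antitone lam) :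
    Module.finrank ℂ (HW n (Fin N) lam) ≤ gt n N lam := by
  induction N generalizing lam with
  | zero => exact finrank_HW_zero n lam
  | succ N ih =>
    rw [gt]
    exact (finrank_HW_succ n N lam).trans
      (Finset.sum_le_sum fun mu hmu => ih (strip_anti hmu hl))

end Vale.Agent.P181.H539
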