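import Vale.Agent.P181.T4.Asm
import Vale.Agent.P181.H539.Upper

set_option autoImplicit false

namespace Vale.Agent.P181.H539

/-- **(D2)** in the form used by the assembly. -/
theorem up_stmt : Vale.Agent.P181.T4.UpStmt := fun n N _ hl => finrank_HW_le_gt n N hl

end Vale.Agent.P181.H539
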