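import Vale.Agent.P181.H162.Dat6

set_option autoImplicit false
set_option linter.all false

/-! P181, T6: counting the marks ([F3]). -/

namespace Vale.Agent.P181.H162

open Finset Vale.Agent.P181.T6 Vale.Agent.P181.T4

open Classical in
theorem Dat.card_mark_norm {e b n : ℕ} {lam : ℕ → ℕ} (D : Dat e b n lam) (q : Fin D.N) {i : ℕ}
    (hi : i < D.R) : (univ.filter fun k : D.K => D.isM k i (Sum.inr q)).card =
    tau6 D.cl D.dig D.pos D.row q i := by
  let f : Fin D.m → D.K := fun t => Sum.inl (Sum.inl (Sum.inl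
    ⟨(D.cl q, t, D.dig q t), ⟨D.blk q t, D.blk_lt q (D.lt_b q) t⟩⟩))
  have hf : Function.Injective f := by
    intro t t' h
    simp only [f, Sum.inl.injEq, Sigma.mk.injEq, Prod.mk.injEq] at h
    exact h.1.2.1
  have e1 : (univ.filter fun k : D.K => D.isM k i (Sum.inr q)) =
      (univ.filter fun t : Fin D.m =>
        ((D.row (D.cl q, t, D.dig q t, D.pos q t) : Fin D.R) : ℕ) = i).image f := by
    ext k
    rw [mem_filter, mem_image]
    constructor
    · rintro ⟨-, h⟩
      rcases k with ((⟨⟨c, t, x⟩, β⟩ | ⟨c, t, j, i0⟩) | κ) | κ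
      · simp only [isM] at h
        obtain ⟨rfl, rfl, h3, h4⟩ := h
        refine ⟨t, mem_filter.2 ⟨mem_univ _, h4⟩, ?_⟩
        simp only [f]
        congr 4
        exact Fin.ext h3
      · exact absurd h (by simp [isM])
      · exact absurd h (by simp [isM])
      · exact absurd h (by simp [isM])
    · rintro ⟨t, ht, rfl⟩
      rw [mem_filter] at ht
      exact ⟨mem_univ _, rfl, rfl, rfl, ht.2⟩
  rw [e1, card_image_of_injective _ hf, tau6]

open Classical in
theorem Dat.card_mark_spec {e b n : ℕ} {lam : ℕ → ℕ} (D : Dat e b n lam) (s : Fin D.R × Fin 2)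
    {i : ℕ} (hi : i < D.R) : (univ.filter fun k : D.K => D.isM k i (Sum.inl s)).card =
    if i = s.1 then D.rho s.1 s.2 else 0 := by
  obtain ⟨r, j⟩ := s
  split_ifs with h0
  · have hr : D.rho r j ≤ e := by
      have := (D.rho_lt r r.2 j).2
      omega
    let f : Fin (D.rho r j) → D.K := fun i0 => Sum.inl (Sum.inl (Sum.inr
      ((D.row.symm r).1, (D.row.symm r).2.1, j, ⟨i0, i0.2.trans_le hr⟩)))
    have hf : Function.Injective f := by
      intro t t' h
      simp only [f, Sum.inl.injEq, Sum.inr.injEq, Prod.mk.injEq, Fin.mk.injEq, true_and] at h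
      exact Fin.ext h
    have e1 : (univ.filter fun k : D.K => D.isM k i (Sum.inl (r, j))) = univ.image f := by
      ext k
      rw [mem_filter, mem_image]
      constructor
      · rintro ⟨-, h⟩
        rcases k with ((⟨⟨c, t, x⟩, β⟩ | ⟨c, t, j', i0⟩) | κ) | κ
        · exact absurd h (by simp [isM])
        · simp only [isM] at h
          obtain ⟨h1, rfl, rfl, rfl, h5⟩ := h
          exact ⟨⟨i0, h5⟩, mem_univ _, rfl⟩
        · exact absurd h (by simp [isM])
        · exact absurd h (by simp [isM])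
      · rintro ⟨t, -, rfl⟩
        exact ⟨mem_univ _, h0.symm, rfl, rfl, rfl, t.2⟩
    rw [e1, card_image_of_injective _ hf, card_univ, Fintype.card_fin]
  · rw [card_eq_zero, filter_eq_empty_iff]
    intro k _ h
    rcases k with ((⟨⟨c, t, x⟩, β⟩ | ⟨c, t, j', i0⟩) | κ) | κ
    · exact absurd h (by simp [isM])
    · simp only [isM] at h
      exact h0 h.1.symm
    · exact absurd h (by simp [isM])
    · exact absurd h (by simp [isM])

open Classical in
theorem Dat.card_mark_row {e b n : ℕ} {lam : ℕ → ℕ} (D : Dat e b n lam) {i : ℕ} (hi : i < D.R) :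
    (univ.filter fun k : D.K => ∃ q, D.isM k i q).card =
    ∑ q ∈ range D.N, tau6 D.cl D.dig D.pos D.row q i + (D.rho i 0 + D.rho i 1) := by
  have e1 : (univ.filter fun k : D.K => ∃ q, D.isM k i q) =
      (univ : Finset D.Pt).biUnion (fun q => univ.filter fun k : D.K => D.isM k i q) := by
    ext k
    simp only [mem_filter, mem_univ, true_and, mem_biUnion]
  rw [e1, card_biUnion]
  · rw [show (∑ q : D.Pt, (univ.filter fun k : D.K => D.isM k i q).card) =
      ∑ s : Fin D.R × Fin 2, (univ.filter fun k : D.K => D.isM k i (Sum.inl s)).card +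
      ∑ q : Fin D.N, (univ.filter fun k : D.K => D.isM k i (Sum.inr q)).card from
      Fintype.sum_sum_type _]
    rw [add_comm]
    congr 1
    · rw [sum_range]
      exact sum_congr rfl (fun q _ => D.card_mark_norm q hi)
    · rw [sum_congr rfl (fun s _ => D.card_mark_spec s hi), Fintype.sum_prod_type]
      have h1 : ∀ r : Fin D.R, ∑ j : Fin 2, (if i = (((r, j) : Fin D.R × Fin 2).1 : ℕ) then
          D.rho ((r, j) : Fin D.R × Fin 2).1 ((r, j) : Fin D.R × Fin 2).2 else 0) =
          if r = ⟨i, hi⟩ then D.rho i 0 + D.rho i 1 else 0 := by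
        intro r
        by_cases h : r = ⟨i, hi⟩
        · rw [if_pos h, h]
          simp
        · have h2 : ¬ i = (r : ℕ) := fun h3 => h (Fin.ext h3.symm)
          rw [if_neg h]
          simp [h2]
      rw [sum_congr rfl (fun r _ => h1 r)]
      simp
  · intro q _ q' _ hq
    rw [Function.onFun, disjoint_left]
    intro k hk hk'
    rw [mem_filter] at hk hk'
    exact hq (D.isM_unique hk.2 hk'.2)

theorem Dat.sum_tau {e b n : ℕ} {lam : ℕ → ℕ} (D : Dat e b n lam) (q : ℕ) :
    ∑ i ∈ range D.R, tau6 D.cl D.dig D.pos D.row q i = D.m := by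
  unfold tau6
  rw [← card_eq_sum_card_fiberwise (f := fun t : Fin D.m =>
    ((D.row (D.cl q, t, D.dig q t, D.pos q t) : Fin D.R) : ℕ))]
  · rw [card_univ, Fintype.card_fin]
  · intro t _
    exact mem_coe.2 (mem_range.2 (Fin.is_lt _))

end Vale.Agent.P181.H162
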