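import Vale.Agent.P181.T6.Spec
import Vale.Agent.P181.H921.Col

set_option autoImplicit false
set_option linter.all false

/-! P181, T6: cutting rows (CutStmt) and removing the fixed columns (CostStmt). -/

open Finset

namespace Vale.Agent.P181.H539

open Vale.Agent.P181.H463 Vale.Agent.P181.T4 Vale.Agent.P181.T6

/-- the top part of a strip -/
def topPart {n : ℕ} (R : ℕ) (mu : Fin n → ℕ) : Fin R → ℕ := fun i => ex mu i

lemma ex_nxt {n : ℕ} (lam : Fin n → ℕ) (i : Fin n) : nxt lam i = ex lam (i + 1) := rfl

lemma top_low_inj {n R : ℕ} (hR : R ≤ n) {mu nu : Fin n → ℕ} (h1 : topPart R mu = topPart R nu)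
    (h2 : low R mu = low R nu) : mu = nu := by
  funext i
  by_cases hi : (i : ℕ) < R
  · have := congrFun h1 ⟨i, hi⟩
    simp only [topPart] at this
    rwa [ex_of_lt mu i.2, ex_of_lt nu i.2] at this
  · have hi2 : (i : ℕ) - R < n - R := by have := i.2; omega
    have := congrFun h2 ⟨i - R, hi2⟩
    simp only [low] at this
    have e : R + ((i : ℕ) - R) = i := by omega
    rw [e] at this
    rwa [ex_of_lt mu i.2, ex_of_lt nu i.2] at this

lemma mem_strips_ex {n : ℕ} {lam mu : Fin n → ℕ} (h : mu ∈ strips lam) {i : ℕ} (hi : i < n) :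
    ex lam (i + 1) ≤ ex mu i ∧ ex mu i ≤ ex lam i := by
  have := (Vale.Agent.P181.H921.mem_strips.1 h) ⟨i, hi⟩
  rw [ex_nxt] at this
  rw [ex_of_lt mu hi, ex_of_lt lam hi]
  exact this

lemma low_mem_strips {n R : ℕ} {lam mu : Fin n → ℕ} (h : mu ∈ strips lam) :
    low R mu ∈ strips (low R lam) := by
  rw [Vale.Agent.P181.H921.mem_strips]
  intro i
  have hi : R + (i : ℕ) < n := by have := i.2; omega
  have h1 := mem_strips_ex h hi
  refine ⟨?_, h1.2⟩
  rw [ex_nxt]
  refine le_trans ?_ h1.1
  by_cases h2 : (i : ℕ) + 1 < n - R
  · rw [ex_of_lt _ h2]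
    simp only [low]
    exact le_of_eq (by congr 1)
  · have : ex (low R lam) ((i : ℕ) + 1) = 0 := by
      unfold ex
      rw [dif_neg h2]
    rw [this]
    exact Nat.zero_le _

/-- **(cut)** -/
theorem cut_stmt : CutStmt := by
  intro a
  induction a with
  | zero =>
    intro n R lam hR _
    rw [Nat.zero_mul, pow_zero, one_mul]
    by_cases h : lam = 0
    · have h2 : low R lam = 0 := by
        funext i
        simp only [low, h, ex]
        split_ifs <;> rfl
      rw [gt, gt, if_pos h, if_pos h2]
    · rw [gt, if_neg h]
      exact Nat.zero_le _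
  | succ a ih =>
    intro n R lam hR hlam
    classical
    set L := ex lam 0 with hL
    have hstep : ∀ mu ∈ strips lam, gt n a mu ≤ (L + 1) ^ (a * R) * gt (n - R) a (low R mu) := by
      intro mu hmu
      refine (ih n R mu hR (Vale.Agent.P181.H921.strips_antitone hlam hmu)).trans ?_
      refine Nat.mul_le_mul_right _ (Nat.pow_le_pow_left (Nat.succ_le_succ ?_) _)
      by_cases hn : 0 < n
      · exact (mem_strips_ex hmu hn).2
      · unfold ex
        rw [dif_neg hn]
        exact Nat.zero_le _
    have hfib : ∀ nu ∈ strips (low R lam),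
        ((strips lam).filter (fun mu => low R mu = nu)).card ≤ (L + 1) ^ R := by
      intro nu _
      have h1 : ((strips lam).filter (fun mu => low R mu = nu)).card ≤
          (Fintype.piFinset (fun _ : Fin R => Finset.range (L + 1))).card := by
        refine Finset.card_le_card_of_injOn (topPart R) ?_ ?_
        · intro mu hmu
          rw [Finset.mem_coe, Finset.mem_filter] at hmu
          rw [Finset.mem_coe, Fintype.mem_piFinset]
          intro i
          rw [Finset.mem_range]
          have h2 := (mem_strips_ex hmu.1 (show (i : ℕ) < n by have := i.2; omega)).2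
          have h3 : ex lam i ≤ L := ex_anti hlam (Nat.zero_le _)
          simp only [topPart]
          omega
        · intro mu hmu mu' hmu' h
          rw [Finset.mem_coe, Finset.mem_filter] at hmu hmu'
          exact top_low_inj hR h (hmu.2.trans hmu'.2.symm)
      refine h1.trans (le_of_eq ?_)
      rw [Fintype.card_piFinset]
      simp
    calc gt n (a + 1) lam = ∑ mu ∈ strips lam, gt n a mu := rfl
      _ ≤ ∑ mu ∈ strips lam, (L + 1) ^ (a * R) * gt (n - R) a (low R mu) :=
          Finset.sum_le_sum hstep
      _ = ∑ nu ∈ strips (low R lam), ∑ mu ∈ (strips lam).filter (fun mu => low R mu = nu),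
            (L + 1) ^ (a * R) * gt (n - R) a (low R mu) := by
          rw [Finset.sum_fiberwise_of_maps_to]
          intro mu hmu
          exact low_mem_strips hmu
      _ = ∑ nu ∈ strips (low R lam), ((strips lam).filter (fun mu => low R mu = nu)).card *
            ((L + 1) ^ (a * R) * gt (n - R) a nu) := by
          refine Finset.sum_congr rfl (fun nu _ => ?_)
          have e : ∀ mu ∈ (strips lam).filter (fun mu => low R mu = nu),
              (L + 1) ^ (a * R) * gt (n - R) a (low R mu) =
                (L + 1) ^ (a * R) * gt (n - R) a nu := by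
            intro mu hmu
            rw [(Finset.mem_filter.1 hmu).2]
          rw [Finset.sum_congr rfl e, Finset.sum_const, smul_eq_mul]
      _ ≤ ∑ nu ∈ strips (low R lam), (L + 1) ^ R *
            ((L + 1) ^ (a * R) * gt (n - R) a nu) :=
          Finset.sum_le_sum (fun nu hnu => Nat.mul_le_mul_right _ (hfib nu hnu))
      _ = (L + 1) ^ ((a + 1) * R) * gt (n - R) (a + 1) (low R lam) := by
          rw [gt, Finset.mul_sum]
          refine Finset.sum_congr rfl (fun nu _ => ?_)
          rw [← mul_assoc, ← pow_add]
          congr 2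
          ring

/-- **(cost)** -/
theorem cost_stmt : CostStmt := by
  intro k b m R N cells a lam eta hR ha hlam hD
  classical
  obtain ⟨T, S, C, fT, fS, fC, D, d, -, -, -, -, hrow, heta, hcells, -, -, -, -⟩ := hD
  have hanti : Antitone eta := by
    intro i j hij
    rw [← heta i, ← heta j]
    refine Finset.card_le_card (fun c hc => ?_)
    rw [Finset.mem_filter] at hc ⊢
    have h2 : (i : ℕ) ≤ j := hij
    exact ⟨hc.1, hc.2.1, by omega⟩
  set s : Finset C := Finset.univ.filter (fun c => D.fx c) with hs
  have hlow : low R lam = fun i : Fin (m - R) =>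
      eta i + (s.filter (fun c => (i : ℕ) < D.len c - R)).card := by
    funext i
    have hi : R + (i : ℕ) < m := by have := i.2; omega
    simp only [low]
    rw [ex_of_lt lam hi, ← hrow ⟨R + i, hi⟩, ← heta i, ← Finset.card_union_of_disjoint]
    · congr 1
      ext c
      simp only [hs, Finset.mem_filter, Finset.mem_univ, true_and, Finset.mem_union]
      constructor
      · intro h
        by_cases hf : D.fx c
        · right; exact ⟨hf, by omega⟩
        · left; exact ⟨hf, h⟩
      · rintro (h | h)
        · exact h.2
        · omega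
    · rw [Finset.disjoint_left]
      intro c hc hc'
      simp only [hs, Finset.mem_filter, Finset.mem_univ, true_and] at hc hc'
      exact hc.1 hc'.1
  have hcost : (∏ c ∈ s, a.choose (D.len c - R)) ≤ a ^ cells := by
    calc (∏ c ∈ s, a.choose (D.len c - R)) ≤ ∏ c ∈ s, a ^ (D.len c - R) :=
          Finset.prod_le_prod' (fun c _ => Nat.choose_le_pow _ _)
      _ = a ^ ∑ c ∈ s, (D.len c - R) := Finset.prod_pow_eq_pow_sum _ _ _
      _ ≤ a ^ cells := Nat.pow_le_pow_right ha hcells
  refine ⟨hanti, ?_, ?_, ?_⟩
  · rw [hlow]
    refine (Vale.Agent.P181.H921.gt_addcols_le a s (fun c => D.len c - R) (fun c _ => ?_)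
      hanti).trans (Nat.mul_le_mul_right _ hcost)
    exact Nat.sub_le_sub_right (D.len_le c) R
  · rw [hlow, Finset.sum_add_distrib]
    refine Nat.add_le_add_left (le_trans ?_ hcells) _
    simp_rw [Finset.card_filter]
    rw [Finset.sum_comm]
    refine Finset.sum_le_sum (fun c _ => ?_)
    rw [← Finset.card_filter]
    calc (Finset.univ.filter (fun i : Fin (m - R) => (i : ℕ) < D.len c - R)).card
        ≤ (Finset.range (D.len c - R)).card := by
          refine Finset.card_le_card_of_injOn (fun i : Fin (m - R) => (i : ℕ)) ?_ ?_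
          · intro i hi
            rw [Finset.mem_coe, Finset.mem_filter] at hi
            rw [Finset.mem_coe, Finset.mem_range]
            exact hi.2
          · intro i _ j _ h
            exact Fin.ext h
      _ = D.len c - R := Finset.card_range _
  · intro i
    rw [hlow]
    exact Nat.le_add_right _ _

end Vale.Agent.P181.H539
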