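import Vale.Agent.P181.H502.Alg6
import Vale.Agent.P181.H699.Low7

set_option autoImplicit false
set_option linter.all false

/-! P181, T6: the family from a design (FamStmt). -/

open MvPolynomial
open scoped Classical

namespace Vale.Agent.P181.H539

open Vale.Agent.P181 Vale.Agent.P181.H280 Vale.Agent.P181.FR Vale.Agent.P181.H188W
open Vale.Agent.P181.T4 Vale.Agent.P181.H463 Vale.Agent.P181.H699 Vale.Agent.P181.T6

variable {m R N : ℕ} {T S C : Type} [Fintype T] [Fintype S] [Fintype C]

/-- The incidences of a position of a column with given top servers and lower letters. -/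
lemma card_pos' {A : Type} [DecidableEq A] {R n : ℕ} (srv : ℕ → A) (lo : Fin (n - R) → A)
    (J : Fin n → A) (h1 : ∀ j : Fin n, (j : ℕ) < R → J j = srv j)
    (h2 : ∀ s : Fin (n - R), J ⟨R + s, by omega⟩ = lo s) (p : A) :
    (Finset.univ.filter fun i : Fin n => J i = p).card =
      ((Finset.range n).filter (fun i => i < R ∧ srv i = p)).card +
      (Finset.univ.filter fun s : Fin (n - R) => lo s = p).card := by
  have h3 : (Finset.univ.filter fun i : Fin n => J i = p) =
      (Finset.univ.filter fun i : Fin n => (i : ℕ) < R ∧ srv i = p) ∪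
      (Finset.univ.filter fun i : Fin n => R ≤ (i : ℕ) ∧ J i = p) := by
    ext i
    simp only [Finset.mem_filter, Finset.mem_univ, true_and, Finset.mem_union]
    by_cases hi : (i : ℕ) < R
    · rw [h1 i hi]
      constructor
      · intro h; exact Or.inl ⟨hi, h⟩
      · rintro (h | h)
        · exact h.2
        · omega
    · constructor
      · intro h; exact Or.inr ⟨by omega, h⟩
      · rintro (h | h)
        · exact absurd h.1 hi
        · exact h.2
  have h4 : Disjoint
      (Finset.univ.filter fun i : Fin n => (i : ℕ) < R ∧ srv i = p)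
      (Finset.univ.filter fun i : Fin n => R ≤ (i : ℕ) ∧ J i = p) := by
    rw [Finset.disjoint_left]
    intro i hi hi'
    rw [Finset.mem_filter] at hi hi'
    omega
  rw [h3, Finset.card_union_of_disjoint h4]
  congr 1
  · rw [Finset.card_filter, Finset.card_filter, Finset.sum_range]
  · symm
    refine Finset.card_bij (fun s _ => ⟨R + s, by omega⟩) ?_ ?_ ?_
    · intro s hs
      rw [Finset.mem_filter] at hs ⊢
      refine ⟨Finset.mem_univ _, by simp, ?_⟩
      rw [h2]
      exact hs.2
    · intro s _ s' _ h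
      have := congrArg Fin.val h
      simp only at this
      exact Fin.ext (by omega)
    · intro i hi
      rw [Finset.mem_filter] at hi
      refine ⟨⟨i - R, by omega⟩, ?_, Fin.ext (by simp only; omega)⟩
      rw [Finset.mem_filter]
      refine ⟨Finset.mem_univ _, ?_⟩
      have h3 := hi.2.2
      have h5 := h2 ⟨i - R, by omega⟩
      have h6 : (⟨R + (i - R : ℕ), by omega⟩ : Fin n) = i := Fin.ext (by simp only; omega)
      simp only at h5
      rw [h6, h3] at h5
      exact h5.symm

/-- The letters of the lower rows. -/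
noncomputable def lowJ (D : Design m R N T S C) (c : C) (lo : Fin (D.len c - R) → Fin N)
    (s : Fin (D.len c - R)) : T ⊕ (S ⊕ Fin N) :=
  if D.fx c then Sum.inr (D.bot c s) else Sum.inr (Sum.inr (lo s))

/-- The number of incidences. -/
lemma deg_one (D : Design m R N T S C) (c : C) (lo : Fin (D.len c - R) → Fin N)
    (p : T ⊕ (S ⊕ Fin N)) :
    (Finset.univ.filter fun i => D.J c lo i = p).card =
      ((Finset.range (D.len c)).filter (fun i => i < R ∧ D.srv c i = p)).card +
      ((if D.fx c then (Finset.univ.filter fun j => Sum.inr (D.bot c j) = p).card else 0) +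
      (if D.fx c then 0 else (Finset.univ.filter fun s =>
        (Sum.inr (Sum.inr (lo s)) : T ⊕ (S ⊕ Fin N)) = p).card)) := by
  rw [card_pos' (D.srv c) (lowJ D c lo) (D.J c lo) (fun j hj => by rw [Design.J, dif_pos hj])
    (fun s => by
      rw [Design.J, dif_neg (by simp), lowJ]
      have e : ∀ h : R + (s : ℕ) - R < D.len c - R,
          (⟨R + (s : ℕ) - R, h⟩ : Fin (D.len c - R)) = s := fun h => Fin.ext (by simp)
      simp only [e]) p]
  congr 1
  unfold lowJ
  by_cases hf : D.fx c
  · simp [hf]
  · simp [hf]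

/-- Every letter is used `k` times. -/
lemma deg6 {b k : ℕ} (D : Design m R N T S C) (e : Fin b ≃ T ⊕ (S ⊕ Fin N))
    (lo : (c : C) → Fin (D.len c - R) → Fin N) (d : Fin N → ℕ)
    (hT : ∀ t, D.inc (Sum.inl t) = k) (hS : ∀ s, D.inc (Sum.inr (Sum.inl s)) = k)
    (hN : ∀ q, D.inc (Sum.inr (Sum.inr q)) + d q = k)
    (hlo : ∀ q, ∑ c ∈ Finset.univ.filter (fun c => ¬ D.fx c),
      (Finset.univ.filter fun s => lo c s = q).card = d q) (j : Fin b) :
    ∑ c, (Finset.univ.filter fun i => e.symm (D.J c (lo c) i) = j).card = k := by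
  have h1 : ∀ c, (Finset.univ.filter fun i : Fin (D.len c) => e.symm (D.J c (lo c) i) = j).card =
      (((Finset.range (D.len c)).filter (fun i => i < R ∧ D.srv c i = e j)).card +
      (if D.fx c then (Finset.univ.filter fun s => Sum.inr (D.bot c s) = e j).card else 0)) +
      (if D.fx c then 0 else (Finset.univ.filter fun s =>
        (Sum.inr (Sum.inr (lo c s)) : T ⊕ (S ⊕ Fin N)) = e j).card) := by
    intro c
    rw [add_assoc, ← deg_one D c (lo c) (e j)]
    congr 1
    ext i
    rw [Finset.mem_filter, Finset.mem_filter, Equiv.symm_apply_eq]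
  rw [Finset.sum_congr rfl (fun c _ => h1 c), Finset.sum_add_distrib]
  have h2 : ∑ c, (((Finset.range (D.len c)).filter (fun i => i < R ∧ D.srv c i = e j)).card +
      (if D.fx c then (Finset.univ.filter fun s => Sum.inr (D.bot c s) = e j).card else 0)) =
      D.inc (e j) := rfl
  rw [h2]
  have h3 : ∑ c, (if D.fx c then 0 else (Finset.univ.filter fun s =>
      (Sum.inr (Sum.inr (lo c s)) : T ⊕ (S ⊕ Fin N)) = e j).card) =
      ∑ c ∈ Finset.univ.filter (fun c => ¬ D.fx c), (Finset.univ.filter fun s =>
        (Sum.inr (Sum.inr (lo c s)) : T ⊕ (S ⊕ Fin N)) = e j).card := by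
    rw [Finset.sum_filter]
    refine Finset.sum_congr rfl (fun c _ => ?_)
    by_cases hf : D.fx c <;> simp [hf]
  rw [h3]
  rcases hj : e j with t | s | q
  · rw [hT t]
    simp
  · rw [hS s]
    simp
  · rw [← hN q, ← hlo q]
    congr 1
    refine Finset.sum_congr rfl (fun c _ => ?_)
    congr 1
    ext s
    simp

/-- The total number of incidences. -/
lemma sum_inc6 (D : Design m R N T S C) (lo : (c : C) → Fin (D.len c - R) → Fin N) (d : Fin N → ℕ)
    {b k : ℕ} (lam : Fin m → ℕ) (hsum : ∑ i, lam i = k * b)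
    (hcard : Fintype.card T + (Fintype.card S + N) = b)
    (hrow : ∀ i : Fin m, (Finset.univ.filter fun c => (i : ℕ) < D.len c).card = lam i)
    (hT : ∀ t, D.inc (Sum.inl t) = k) (hS : ∀ s, D.inc (Sum.inr (Sum.inl s)) = k)
    (hN : ∀ q, D.inc (Sum.inr (Sum.inr q)) + d q = k) :
    ∑ q, d q = ∑ c ∈ Finset.univ.filter (fun c => ¬ D.fx c), (D.len c - R) := by
  have h1 : ∑ c, D.len c = k * b := by
    rw [← hsum]
    have h2 : ∀ i : Fin m, lam i = ∑ c, if (i : ℕ) < D.len c then 1 else 0 := by
      intro i
      rw [← hrow i, Finset.card_filter]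
    rw [Finset.sum_congr rfl (fun i _ => h2 i), Finset.sum_comm]
    refine Finset.sum_congr rfl (fun c _ => ?_)
    rw [← Finset.card_filter]
    have h3 := D.len_le c
    rw [Fin.card_filter_val_lt]
    omega
  have h4 : ∑ p, D.inc p + ∑ c ∈ Finset.univ.filter (fun c => ¬ D.fx c), (D.len c - R) =
      ∑ c, D.len c := by
    have h5 : ∀ c, D.len c = (∑ p : T ⊕ (S ⊕ Fin N),
        (((Finset.range (D.len c)).filter (fun i => i < R ∧ D.srv c i = p)).card +
        (if D.fx c then (Finset.univ.filter fun j => Sum.inr (D.bot c j) = p).card else 0))) +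
        (if ¬ D.fx c then (D.len c - R) else 0) := by
      intro c
      have h6 : D.len c = ∑ p : T ⊕ (S ⊕ Fin N),
          (Finset.univ.filter fun i => D.J c (lo c) i = p).card := by
        rw [← Finset.card_eq_sum_card_fiberwise (f := fun i => D.J c (lo c) i)
          (fun _ _ => Finset.mem_coe.2 (Finset.mem_univ _))]
        simp
      conv_lhs => rw [h6]
      rw [Finset.sum_congr rfl (fun p _ => deg_one D c (lo c) p)]
      simp_rw [← add_assoc]
      rw [Finset.sum_add_distrib]
      congr 1
      by_cases hf : D.fx c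
      · simp [hf]
      · simp only [hf, if_false, if_true, not_false_eq_true]
        rw [← Finset.card_eq_sum_card_fiberwise (f := fun s =>
          (Sum.inr (Sum.inr (lo c s)) : T ⊕ (S ⊕ Fin N)))
          (fun _ _ => Finset.mem_coe.2 (Finset.mem_univ _))]
        simp
    conv_rhs => rw [Finset.sum_congr rfl (fun c _ => h5 c)]
    rw [Finset.sum_add_distrib, ← Finset.sum_filter, Finset.sum_comm]
    rfl
  have h7 : ∑ p, D.inc p + ∑ q, d q = k * b := by
    rw [Fintype.sum_sum_type, Fintype.sum_sum_type, add_assoc, add_assoc,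
      ← Finset.sum_add_distrib, Finset.sum_congr rfl (fun t _ => hT t),
      Finset.sum_congr rfl (fun s _ => hS s), Finset.sum_congr rfl (fun q _ => hN q)]
    simp only [Finset.sum_const, Finset.card_univ, smul_eq_mul, Fintype.card_fin]
    rw [← add_mul, ← add_mul, hcard, mul_comm]
  omega

/-- **(C1'')** for `1 ≤ N`. -/
theorem fam_stmt1 : ∀ (k b n R N cells : ℕ) (lam : Fin n → ℕ) (eta : Fin (n - R) → ℕ), 1 ≤ N →
    R ≤ n → Antitone lam → ∑ i, lam i = k * b → DesignFor k b n R N cells lam eta →
    ∃ P : ℕ, Family k b n lam P ∧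
      gt (n - R) N eta ≤ ((∑ i, eta i) + N - 1).choose (N - 1) * P := by
  intro k b n R N cells lam eta hN1 hR hlam hsum hD
  obtain ⟨T, S, C, fT, fS, fC, D, d, hTy, hRi, hUn, hcard, hrow, heta, hcells, hT, hS, hN, hd⟩ := hD
  have lo0 : (c : C) → Fin (D.len c - R) → Fin N := fun _ _ => ⟨0, hN1⟩
  have hdsum := sum_inc6 D lo0 d lam hsum hcard hrow hT hS hN
  -- the columns which are not fixed
  let C' : Type := {c : C // ¬ D.fx c}
  have hη : ∀ i : Fin (n - R),
      (Finset.univ.filter fun c : C' => R + (i : ℕ) < D.len c.1).card = eta i := by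
    intro i
    rw [← heta i]
    refine Finset.card_bij (fun c _ => c.1) ?_ ?_ ?_
    · intro c hc
      rw [Finset.mem_filter] at hc ⊢
      exact ⟨Finset.mem_univ _, c.2, hc.2⟩
    · intro c _ c' _ h
      exact Subtype.ext h
    · intro c hc
      rw [Finset.mem_filter] at hc
      exact ⟨⟨c, hc.2.1⟩, Finset.mem_filter.2 ⟨Finset.mem_univ _, hc.2.2⟩, rfl⟩
  have hds : ∑ q, d q = ∑ i, eta i := by
    rw [hdsum]
    have h1 : ∀ i : Fin (n - R), eta i = ∑ c ∈ Finset.univ.filter (fun c => ¬ D.fx c),
        if R + (i : ℕ) < D.len c then 1 else 0 := by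
      intro i
      rw [← heta i, ← Finset.card_filter, Finset.filter_filter]
    rw [Finset.sum_congr rfl (fun i _ => h1 i), Finset.sum_comm]
    refine Finset.sum_congr rfl (fun c _ => ?_)
    rw [← Finset.card_filter]
    have h3 := D.len_le c
    have h4 : (Finset.univ.filter fun i : Fin (n - R) => R + (i : ℕ) < D.len c) =
        (Finset.univ.filter fun i : Fin (n - R) => (i : ℕ) < D.len c - R) := by
      ext i
      simp only [Finset.mem_filter, Finset.mem_univ, true_and]
      omega
    rw [h4, Fin.card_filter_val_lt]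
    omega
  obtain ⟨ι, hι, lo', hlo', hli, hgt⟩ := exists_lower (N := N) (fun c : C' => D.len c.1)
    (fun c => D.len_le c.1) eta hη d hd hds
  let lo : ι → (c : C) → Fin (D.len c - R) → Fin N := fun β c =>
    if h : D.fx c then lo0 c else lo' β ⟨c, h⟩
  have hlo_eq : ∀ β (c : C'), lo β c.1 = lo' β c := by
    intro β c
    simp only [lo]
    rw [dif_neg c.2]
  have hcont : ∀ β q, ∑ c ∈ Finset.univ.filter (fun c => ¬ D.fx c),
      (Finset.univ.filter fun s => lo β c s = q).card = d q := by
    intro β q
    rw [← hlo' β q]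
    rw [Finset.sum_subtype (p := fun c => ¬ D.fx c) (Finset.univ.filter (fun c => ¬ D.fx c))
      (fun c => by simp)]
    exact Finset.sum_congr rfl (fun c _ => by rw [hlo_eq])
  have hli2 : LinearIndependent ℂ (fun β : ι => ∏ c ∈ Finset.univ.filter (fun c => ¬ D.fx c),
      dt (B := N) (m := n - R) (Nat.sub_le_sub_right (D.len_le c) R) (lo β c)) := by
    have e1 : (fun β : ι => ∏ c ∈ Finset.univ.filter (fun c => ¬ D.fx c),
        dt (B := N) (m := n - R) (Nat.sub_le_sub_right (D.len_le c) R) (lo β c)) =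
        (fun β : ι => ∏ c : C', dt (B := N) (m := n - R)
          (Nat.sub_le_sub_right (D.len_le c.1) R) (lo' β c)) := by
      funext β
      rw [Finset.prod_subtype (p := fun c => ¬ D.fx c) (Finset.univ.filter (fun c => ¬ D.fx c))
        (fun c => by simp)]
      exact Finset.prod_congr rfl (fun c _ => by rw [hlo_eq])
    rw [e1]
    exact hli
  have e : Fin b ≃ T ⊕ (S ⊕ Fin N) := (Fintype.equivFinOfCardEq (by simpa using hcard)).symm
  have hmain := Vale.Agent.P181.H502.alg6 n R N b T S C D hTy hRi hUn e ι lo hli2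
  refine ⟨Fintype.card ι, ⟨C, ι, fC, hι, D.len, D.len_le,
    fun β c i => e.symm (D.J c (lo β c) i), hrow, ?_, hmain, le_rfl⟩, hgt⟩
  intro β j
  exact deg6 D e (lo β) d hT hS hN (hcont β) j

end Vale.Agent.P181.H539
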