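import Vale.Agent.P181.T6.Asm6
import Vale.Agent.P181.H539.Fam6
import Vale.Agent.P181.H539.Cut6
import Vale.Agent.P181.H162.Exist
import Vale.Agent.P181.H921.NumStmt6

set_option autoImplicit false
set_option linter.all false

/-! P181, T6: the lower bound LB6. -/

namespace Vale.Agent.P181.H539

open Vale.Agent.P181.FR Vale.Agent.P181.H188W Vale.Agent.P181.T4 Vale.Agent.P181.H280
open Vale.Agent.P181.H463 Vale.Agent.P181.T6

/-- The bound for one partition. -/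
theorem lb6_one' {ε : ℝ} {a k b n : ℕ} {lam : Fin n → ℕ} {R N l cells : ℕ}
    {eta : Fin (n - R) → ℕ} (ha : 1 ≤ a) (hyp : Hyp ε a k b n lam)
    (hnums : Nums ε a k b n lam R N l cells) (hdes : DesignFor k b n R N cells lam eta)
    (hN : Antitone eta → (∀ i, eta i ≤ low R lam i) →
      ∑ i, low R lam i ≤ ∑ i, eta i + cells →
      ((ex lam 0 : ℝ) + 1) ^ (a * R) * (a : ℝ) ^ cells *
        (((∑ i, eta i) + N - 1).choose (N - 1) : ℝ) * (gt (n - R) a eta : ℝ) *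
        Real.exp (2 * b) ≤ (gt (n - R) N eta : ℝ)) :
    ∃ P : ℕ, Family k b n lam P ∧ (gt n a lam : ℝ) * Real.exp (2 * b) ≤ P := by
  have hlam := hyp.2.2.2.2.2.1
  have hsum := hyp.2.2.2.2.2.2.1
  have hRn : R ≤ n := by
    have h1 := hnums.2.1
    have h2 := hnums.2.2.2.1
    omega
  have hN1 : 1 ≤ N := by
    by_contra hcon
    have hN0 : N = 0 := by omega
    have h1 := hnums.2.2.2.2.2.2.1
    rw [hN0] at h1
    simp only [Nat.cast_zero, mul_zero] at h1
    have h2 := hyp.2.2.2.1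
    have ha' : (0 : ℝ) < a := by exact_mod_cast ha
    have h3 : (0 : ℝ) < (a : ℝ) ^ (1 + ε) := Real.rpow_pos_of_pos ha' _
    linarith
  obtain ⟨c1, c2, c3, c4⟩ := cost_stmt k b n R N cells a lam eta hRn ha hlam hdes
  obtain ⟨P, hP, hgt⟩ := fam_stmt1 k b n R N cells lam eta hN1 hRn hlam hsum hdes
  refine ⟨P, hP, ?_⟩
  have hnum := hN c1 c4 c3
  have hcut := cut_stmt a n R lam hRn hlam
  set Cc : ℕ := ((∑ i, eta i) + N - 1).choose (N - 1) with hCc
  have hCpos : 0 < Cc := by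
    rw [hCc]
    apply Nat.choose_pos
    omega
  have h5 : gt n a lam ≤ (ex lam 0 + 1) ^ (a * R) * (a ^ cells * gt (n - R) a eta) :=
    hcut.trans (Nat.mul_le_mul_left _ c2)
  have h6 : (gt n a lam : ℝ) ≤ ((ex lam 0 : ℝ) + 1) ^ (a * R) *
      ((a : ℝ) ^ cells * gt (n - R) a eta) := by exact_mod_cast h5
  have h7 : (gt (n - R) N eta : ℝ) ≤ (Cc : ℝ) * P := by exact_mod_cast hgt
  have hC0 : (0 : ℝ) < Cc := by exact_mod_cast hCpos
  have hex : 0 < Real.exp (2 * b) := Real.exp_pos _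
  have h8 : (Cc : ℝ) * ((gt n a lam : ℝ) * Real.exp (2 * b)) ≤ (Cc : ℝ) * P := by
    calc (Cc : ℝ) * ((gt n a lam : ℝ) * Real.exp (2 * b))
        ≤ (Cc : ℝ) * ((((ex lam 0 : ℝ) + 1) ^ (a * R) *
            ((a : ℝ) ^ cells * gt (n - R) a eta)) * Real.exp (2 * b)) := by gcongr
      _ = ((ex lam 0 : ℝ) + 1) ^ (a * R) * (a : ℝ) ^ cells * (Cc : ℝ) *
            (gt (n - R) a eta : ℝ) * Real.exp (2 * b) := by ring
      _ ≤ (gt (n - R) N eta : ℝ) := hnum
      _ ≤ _ := h7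
  exact le_of_mul_le_mul_left h8 hC0

/-- **LB6** -/
theorem lb6 : LB6 := by
  intro ε hε hε1
  filter_upwards [Vale.Agent.P181.H162.exist_stmt ε hε hε1,
    Vale.Agent.P181.H921.num_stmt6 ε hε hε1, Filter.eventually_ge_atTop 1] with a hEa hNa ha k b n
    lam hyp
  obtain ⟨R, N, l, cells, eta, hnums, hdes⟩ := hEa k b n lam hyp
  exact lb6_one' ha hyp hnums hdes (hNa k b n lam hyp R N l cells eta hnums)

end Vale.Agent.P181.H539
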