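import Vale.Agent.P181.H539.LB6
import Vale.Agent.P181.H539.UpStmt
import Vale.Agent.P181.H699.Use6
import Vale.Agent.P181.H463.Big

set_option autoImplicit false

/-! P181, T6: the unconditional theorem. -/

namespace Vale.Agent.P181.H539

/-- **T6.** -/
theorem goal6 : Vale.Agent.P181.T6.Goal := by
  refine Vale.Agent.P181.T6.goal_of ?_ Vale.Agent.P181.H699.use6 up_stmt
    Vale.Agent.P181.H463.big_stmt
  intro ε hε hε1
  filter_upwards [lb6 ε hε hε1] with a ha b lam hyp
  exact ha a b a lam hyp

end Vale.Agent.P181.H539
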